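import Vale.Agent.P284.H446.KG6
import Vale.Agent.P284.H731.K6C
import Vale.Agent.P284.H639.K8
import Vale.Agent.P284.H977.K.KG9
import Vale.Agent.P284.H409.K.Cor

/-!
# P284, theorem K for all groups (helper446): assembly

The Monge-Ampère equation is solved on the covering itself; no residual finiteness.
-/

open scoped Manifold ContDiff Topology Pointwise
open Filter Set Metric Function

noncomputable section

namespace Vale.Agent.P284.H446.K

open Vale.Agent.P272.K Vale.Agent.P284.H248 Vale.Agent.P284.H894 Vale.Agent.P284.H894.G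
  Vale.Agent.P284.H894.V Vale.Agent.P284.H894.W Vale.Agent.P284.H913.V Vale.Agent.P284.H409.A
  Vale.Agent.P284.H409.K Vale.Agent.P284.H622

/-- the estimates for the solutions on the covering (output of the Monge-Ampère part), for all
groups -/
def KACYAll : Prop :=
  ∀ (n : ℕ) (Γ : Type) [Group Γ] (C : Coc n Γ) (_ : PU C) (K : KM C) (a₀ : C.I) (z₀ : Cm n)
    (ρ : ℝ), 0 < ρ → ball z₀ (4 * ρ) ⊆ C.V a₀ → H731.K6.KACY C K a₀ z₀ ρ

/-- `KG6Concl` for all groups -/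
def KG6All : Prop :=
  ∀ (n : ℕ) (X : Type) [TopologicalSpace X] [T2Space X] [CompactSpace X] [ConnectedSpace X]
    [ChartedSpace (Cm n) X] [IsManifold 𝓘(ℂ, Cm n) ω X]
    (w : Chart n X → Cm n → Matrix (Fin n) (Fin n) ℂ), IsKahler w →
    ∀ (E Γ : Type) [TopologicalSpace E] [ConnectedSpace E] [Group Γ]
      [MulAction Γ E] (p : E → X),
    IsGalois Γ p → ∀ (S : Set Γ), S.Finite → ¬ Subexp S → ∀ (y : E), ∀ W ∈ 𝓝 y,
    ∃ t ∈ S, ∃ u : E → ℝ, IsPsh (n := n) p u ∧ (∀ y, 0 ≤ u y ∧ u y ≤ 1) ∧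
      ∃ y' ∈ W, u y < u (t • y')

/-- the growth of the fundamental group -/
def KYFinal : Prop :=
  ∀ (n : ℕ) (X : Type) [TopologicalSpace X] [T2Space X] [CompactSpace X] [ConnectedSpace X]
    [ChartedSpace (Cm n) X] [IsManifold 𝓘(ℂ, Cm n) ω X]
    (w : Chart n X → Cm n → Matrix (Fin n) (Fin n) ℂ), IsKahler w →
    ∀ (U : Set X) (x : X) (Q : Set X), IsOpen U → x ∈ U →
    (∀ c : Path x x, ∃ c' : Path x x, c.Homotopic c' ∧ ∀ t, c' t ∈ U) →
    Q.Countable → (∀ y ∈ U, ∃ q ∈ Q, Chain n X y q) →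
    SubexpGrowth (FundamentalGroup X x)

theorem kg6All (hY : KACYAll) : KG6All := by
  classical
  intro n X _ _ _ _ _ _ w hw E Γ _ _ _ _ p hG S hS hexp y W hW
  obtain ⟨C, P, K, Sh, -⟩ := H35.A9.exists_shsK n X w hw E Γ p hG
  obtain ⟨γ₀, a, z₀, hz₀, hy⟩ := Sh.cover y
  have hzΩ : z₀ ∈ C.Ω a := by
    refine ball_subset_ball ?_ hz₀
    have := C.r_pos a
    linarith
  have hcont : ContinuousAt (fun z => γ₀ • Sh.σ a z) z₀ :=
    (hG.cont γ₀).continuousAt.comp ((Sh.cont a).continuousAt (isOpen_ball.mem_nhds hzΩ))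
  have hev : ∀ᶠ z in 𝓝 z₀, γ₀ • Sh.σ a z ∈ W := by
    refine hcont.eventually ?_
    show ∀ᶠ y' in 𝓝 (γ₀ • Sh.σ a z₀), y' ∈ W
    rw [hy]
    exact hW
  have hevV : ∀ᶠ z in 𝓝 z₀, z ∈ C.V a := by
    refine isOpen_ball.mem_nhds ?_
    refine ball_subset_ball ?_ hz₀
    have := C.r_pos a
    linarith
  obtain ⟨ε, hε, hball⟩ := Metric.eventually_nhds_iff_ball.1 (hev.and hevV)
  set ρ : ℝ := ε / 4 with hρ
  have hρ0 : 0 < ρ := by positivity
  have hsub4 : ball z₀ (4 * ρ) ⊆ C.V a := by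
    intro z hz
    have h4 : 4 * ρ = ε := by rw [hρ]; ring
    rw [h4] at hz
    exact (hball z hz).2
  have hsub1 : closedBall z₀ ρ ⊆ ball z₀ ε := closedBall_subset_ball (by rw [hρ]; linarith)
  have hsub2 : closedBall z₀ ρ ⊆ C.V a := fun z hz => (hball z (hsub1 hz)).2
  set e : Γ ≃* Γ := MulAut.conj γ₀⁻¹ with he
  have hexp' : ¬ Subexp (e '' S) := fun h => hexp (subexp_of_image e h)
  obtain ⟨t, ⟨s, hs, hst⟩, α, β, hα, hαβ, f, δ, hδ, hf, hf1, hf2⟩ :=
    H731.K6.k6c C K a z₀ ρ hρ0 (hY n Γ C P K a z₀ ρ hρ0 hsub4) (e '' S) (hS.image _) hexp'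
  obtain ⟨v, hv1, hv2⟩ := H639.K7.k7Stmt n Γ C K f δ hδ hf
  obtain ⟨u, hu, hub, huv⟩ := H639.K7.k8Stmt n X E Γ p hG C Sh v
  have h1 : v.v 1 a z₀ ≤ α :=
    hv1 1 a (ball z₀ ρ) α isOpen_ball (ball_subset_closedBall.trans hsub2) hf1 z₀
      (mem_ball_self hρ0)
  obtain ⟨z, hz, h2⟩ := hv2 t a (closedBall z₀ ρ) β (isCompact_closedBall _ _) hsub2
    (fun j => by
      obtain ⟨z, hz, h⟩ := hf2 j
      exact ⟨z, ball_subset_closedBall hz, h⟩)
  refine ⟨s, hs, fun y' => u (γ₀⁻¹ • y'), isPsh_smul hG γ₀⁻¹ hu, fun y' => hub _,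
    γ₀ • Sh.σ a z, (hball z (hsub1 hz)).1, ?_⟩
  have h3 : u (γ₀⁻¹ • y) = v.v 1 a z₀ := by
    rw [← hy, inv_smul_smul, ← huv 1 a z₀ (hsub2 (mem_closedBall_self hρ0.le)), one_smul]
  have h4 : γ₀⁻¹ • s • γ₀ • Sh.σ a z = t • Sh.σ a z := by
    rw [← hst, he, MulAut.conj_apply, inv_inv, mul_smul, mul_smul]
  have h5 : u (γ₀⁻¹ • s • γ₀ • Sh.σ a z) = v.v t a z := by
    rw [h4]
    exact huv t a z (hsub2 hz)
  show u (γ₀⁻¹ • y) < u (γ₀⁻¹ • s • γ₀ • Sh.σ a z)
  rw [h3, h5]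
  linarith

theorem kg9All (h6 : KG6All) : KYFinal := by
  intro n X iT iT2 iC iCn iCh iM w hw U x Q hUo hx hU hQ hQU
  obtain ⟨N, hN⟩ := Vale.Agent.P300.H673.exists_openEmbedding (Cm n) X
  obtain ⟨Y, Γ, tY, gΓ, aΓ, π, hsc, ht2, hcont, hfree, hcov, hsurj, horb⟩ :=
    Vale.Agent.P223.X.U.main N X hN
  have hcont' : ∀ γ : Γ, Continuous fun y : Y => γ • y := hcont
  have q := Vale.Agent.P223.R2.H968.Lift.quot π hcont hfree hcov hsurj horb
  obtain ⟨y0, rfl⟩ := hsurj x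
  have e : FundamentalGroup X (π y0) ≃* Γᵐᵒᵖ :=
    q.fundamentalGroupEquiv (⟨y0, rfl⟩ : π ⁻¹' {π y0})
  have hG : IsGalois Γ (π : Y → X) := ⟨hcov, hsurj, hcont', hfree, horb⟩
  have hpc : PathConnectedSpace Y := inferInstance
  refine subexpGrowth_of_equiv e fun S hS => ?_
  by_contra hexp
  -- `Γ` is countable
  have : Nonempty X := ⟨π y0⟩
  have hΓ : Countable Γ := by
    obtain ⟨C, -⟩ := H35.A9.exists_shsK n X w hw Y Γ π hG
    exact H977.K.countable_of_fg (H35.W.coc_fg C)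
  -- the component
  have hlc : LocallyConnectedSpace Y := locallyConnected (n := n) hcov.isLocalHomeomorph
  have hVo : IsOpen (connectedComponentIn (π ⁻¹' U) y0) :=
    (hUo.preimage hcov.continuous).connectedComponentIn
  have hVp : IsPreconnected (connectedComponentIn (π ⁻¹' U) y0) :=
    isPreconnected_connectedComponentIn
  have hV0 : ∀ t : Γ, t • y0 ∈ connectedComponentIn (π ⁻¹' U) y0 := fun t =>
    mem_comp hcov ((horb _ _).2 ⟨t, rfl⟩).symm hU
  have hW : (⋂ t ∈ S, (fun y : Y => t • y) ⁻¹' connectedComponentIn (π ⁻¹' U) y0) ∈ 𝓝 y0 := by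
    rw [biInter_mem hS]
    exact fun t _ => (hcont' t).continuousAt.preimage_mem_nhds (hVo.mem_nhds (hV0 t))
  obtain ⟨t, ht, u, hu, hu01, y', hy', hlt⟩ := h6 n X w hw Y Γ π hG S hS hexp y0 _ hW
  have hy'V : t • y' ∈ connectedComponentIn (π ⁻¹' U) y0 := by
    have := mem_iInter₂.1 hy' t ht
    exact this
  have hb : ∃ B : ℝ, ∀ y, |u y| ≤ B :=
    ⟨1, fun y => abs_le.2 ⟨by linarith [(hu01 y).1], (hu01 y).2⟩⟩
  have hcount : (u '' connectedComponentIn (π ⁻¹' U) y0).Countable := by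
    have hfib : (π ⁻¹' Q).Countable := by
      rw [← biUnion_of_singleton Q, preimage_iUnion₂]
      refine hQ.biUnion fun q _ => ?_
      rcases (π ⁻¹' {q}).eq_empty_or_nonempty with h | ⟨z, hz⟩
      · rw [h]; exact countable_empty
      · refine (countable_range fun γ : Γ => γ • z).mono fun z' hz' => ?_
        have h7 : π z = π z' := (mem_singleton_iff.1 hz).trans (mem_singleton_iff.1 hz').symm
        obtain ⟨γ, hγ⟩ := (horb _ _).1 h7
        exact ⟨γ, hγ⟩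
    refine (hfib.image u).mono ?_
    rintro _ ⟨y, hy, rfl⟩
    have hyU : π y ∈ U := by
      have := connectedComponentIn_subset (π ⁻¹' U) y0 hy
      exact this
    obtain ⟨q, hq, hch⟩ := hQU _ hyU
    obtain ⟨z, hz, huz⟩ := H622.g8Stmt H427.g7Stmt n X Y π hcov hsurj y q hch
    exact ⟨z, by show π z ∈ Q; rw [hz]; exact hq, huz u hu hb⟩
  have h9 := H427.g11Stmt H427.g10Stmt n X Y π hcov u hu hb _ hVo hVp hcount y0
    (by simpa using hV0 1) _ hy'V
  linarith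

/-- **The growth of the fundamental group of a compact Kähler manifold which is joined by entire
curves.** -/
theorem kyFinal (hY : KACYAll) : KYFinal := kg9All (kg6All hY)

section
variable {n : ℕ} {X : Type} [TopologicalSpace X] [T2Space X] [CompactSpace X] [ConnectedSpace X]
  [ChartedSpace (Cm n) X] [IsManifold 𝓘(ℂ, Cm n) ω X]

theorem growth (hK : KYFinal) (w : Chart n X → Cm n → Matrix (Fin n) (Fin n) ℂ) (hw : IsKahler w)
    (x : X) (hx : CurveConnected n X x) : SubexpGrowth (FundamentalGroup X x) := by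
  obtain ⟨U, Q, hU, hx, hc, hQ, hch⟩ := hx
  exact hK n X w hw U x Q hU hx hc hQ hch

/-- **Compact Kähler manifolds with a nondegenerate map of finite order from `ℂⁿ` which are joined
by entire curves: the fundamental group is virtually abelian of rank at most `2 n`.** -/
theorem piY (hK : KYFinal) (w : Chart n X → Cm n → Matrix (Fin n) (Fin n) ℂ) (hw : IsKahler w)
    (Φ : Cm n → X) (hΦ : FiniteOrder w Φ) (x : X) (hx : CurveConnected n X x) :
    VAr (FundamentalGroup X x) (2 * n) :=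
  mainPiA' n X w hw Φ hΦ x _ (MonoidHom.id _) Function.surjective_id
    (growth hK w hw x hx).folner

/-- the case of a surjective map -/
theorem piY_surj (hK : KYFinal) (w : Chart n X → Cm n → Matrix (Fin n) (Fin n) ℂ)
    (hw : IsKahler w) (Φ : Cm n → X) (hΦ : FiniteOrder w Φ) (hs : Surjective Φ) (x : X) :
    VAr (FundamentalGroup X x) (2 * n) :=
  piY hK w hw Φ hΦ x (cc_of_surj w Φ hΦ hs x)

/-- no growth condition on `Φ`: subexponential growth -/
theorem growth_surj (hK : KYFinal) (w : Chart n X → Cm n → Matrix (Fin n) (Fin n) ℂ)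
    (hw : IsKahler w) (Φ : Cm n → X) (hΦ : ContMDiff 𝓘(ℂ, Cm n) 𝓘(ℂ, Cm n) ω Φ)
    (hs : Surjective Φ) (x : X) : SubexpGrowth (FundamentalGroup X x) := by
  refine growth hK w hw x ⟨univ, {Φ 0}, isOpen_univ, mem_univ _,
    fun c => ⟨c, Path.Homotopic.refl c, fun t => mem_univ _⟩, countable_singleton _,
    fun y _ => ⟨Φ 0, rfl, ?_⟩⟩
  obtain ⟨ζ, rfl⟩ := hs y
  exact Relation.ReflTransGen.single (onCurve_of_range hΦ ζ)

end

end Vale.Agent.P284.H446.K
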