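import Vale.Agent.P284.H446.GI

/-!
# P284 (helper446): growth and subgroups of finite index
-/

open scoped Manifold ContDiff Topology Pointwise
open Filter Set Metric Function

noncomputable section

namespace Vale.Agent.P284.H446.K

open Vale.Agent.P272.K Vale.Agent.P284.H248 Vale.Agent.P284.H894 Vale.Agent.P284.H894.G
  Vale.Agent.P284.H894.V Vale.Agent.P284.H894.W Vale.Agent.P284.H913.V Vale.Agent.P284.H409.A
  Vale.Agent.P284.H409.K Vale.Agent.P284.H622

/-- A group with a subgroup of finite index of subexponential growth has subexponential growth. -/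
theorem subexp_of_fi {A : Type*} [Group A] (H : Subgroup A) (hH : H.FiniteIndex)
    (h : SubexpGrowth H) : SubexpGrowth A := by
  classical
  intro S hS
  have hfin : Finite (A ⧸ H) := inferInstance
  set T : Set A := range fun q : A ⧸ H => q.out with hT
  have hTf : T.Finite := finite_range _
  -- the Schreier elements
  set Z : Set A := T⁻¹ * (S * T) with hZ
  have hZf : Z.Finite := (hTf.inv).mul (hS.mul hTf)
  set Y : Set H := Subtype.val ⁻¹' Z with hY
  have hYf : Y.Finite := hZf.preimage Subtype.val_injective.injOn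
  have hrep : ∀ a : A, ∃ t ∈ T, t⁻¹ * a ∈ H := by
    intro a
    refine ⟨(a : A ⧸ H).out, ⟨_, rfl⟩, ?_⟩
    exact QuotientGroup.eq.1 (QuotientGroup.out_eq' _)
  obtain ⟨t₀, ht₀, ht₀H⟩ := hrep 1
  have key : ∀ k : ℕ, ∀ w ∈ S ^ k, ∃ t ∈ T, ∃ y ∈ Y ^ k, w * t₀ = t * (y : A) := by
    intro k
    induction k with
    | zero =>
      intro w hw
      rw [pow_zero, Set.mem_one] at hw
      subst hw
      exact ⟨t₀, ht₀, 1, by simp, by simp⟩
    | succ k ih =>
      intro w hw
      rw [pow_succ'] at hw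
      obtain ⟨s, hs, w', hw', rfl⟩ := Set.mem_mul.1 hw
      obtain ⟨t, ht, y, hy, e⟩ := ih w' hw'
      obtain ⟨t', ht', h'⟩ := hrep (s * t)
      refine ⟨t', ht', ⟨t'⁻¹ * (s * t), h'⟩ * y, ?_, ?_⟩
      · rw [pow_succ']
        refine Set.mul_mem_mul ?_ hy
        show t'⁻¹ * (s * t) ∈ Z
        exact Set.mul_mem_mul (Set.inv_mem_inv.2 ht') (Set.mul_mem_mul hs ht)
      · rw [mul_assoc, e]
        push_cast
        group
  intro ε hε
  obtain ⟨C, hC⟩ := h Y hYf ε hε
  refine ⟨T.ncard * C, fun k => ?_⟩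
  have hfY : (Y ^ k).Finite := by
    clear hC
    induction k with
    | zero => rw [pow_zero]; exact Set.finite_one
    | succ k ih => rw [pow_succ]; exact ih.mul hYf
  have h1 : (S ^ k).ncard ≤ (T * (Subtype.val '' (Y ^ k))).ncard := by
    have hfin2 : (T * (Subtype.val '' (Y ^ k))).Finite := hTf.mul (hfY.image _)
    rw [← Set.ncard_image_of_injective (S ^ k) (mul_left_injective t₀)]
    refine Set.ncard_le_ncard ?_ hfin2
    rintro _ ⟨w, hw, rfl⟩
    obtain ⟨t, ht, y, hy, e⟩ := key k w hw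
    show w * t₀ ∈ _
    rw [e]
    exact Set.mul_mem_mul ht ⟨y, hy, rfl⟩
  have h2 : (T * (Subtype.val '' (Y ^ k))).ncard ≤ T.ncard * (Y ^ k).ncard := by
    have := Set.natCard_mul_le (s := T) (t := (Subtype.val '' (Y ^ k)))
    rw [Nat.card_coe_set_eq, Nat.card_coe_set_eq, Nat.card_coe_set_eq,
      Set.ncard_image_of_injective _ Subtype.val_injective] at this
    exact this
  have h3 := hC k
  calc ((S ^ k).ncard : ℝ) ≤ ((T.ncard * (Y ^ k).ncard : ℕ) : ℝ) := by exact_mod_cast h1.trans h2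
    _ = T.ncard * ((Y ^ k).ncard : ℝ) := by push_cast; ring
    _ ≤ T.ncard * (C * Real.exp (ε * k)) := by gcongr
    _ = T.ncard * C * Real.exp (ε * k) := by ring

section
variable {n : ℕ} {X : Type} [TopologicalSpace X] [T2Space X] [CompactSpace X] [ConnectedSpace X]
  [ChartedSpace (Cm n) X] [IsManifold 𝓘(ℂ, Cm n) ω X]

/-- the image of `π₁(U)` has finite index -/
theorem growth_fi (h6 : KG6All) (w : Chart n X → Cm n → Matrix (Fin n) (Fin n) ℂ)
    (hw : IsKahler w) (U : Set X) (x : X) (hx : x ∈ U) (Q : Set X) (hUo : IsOpen U)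
    (hQ : Q.Countable) (hQU : ∀ y ∈ U, ∃ q ∈ Q, Chain n X y q)
    (hfi : (img U x hx).FiniteIndex) : SubexpGrowth (FundamentalGroup X x) :=
  subexp_of_fi _ hfi (growth_img h6 w hw U x hx Q hUo hQ hQU)

/-- the image of `π₁(U)` has finite index, `Φ` of finite order -/
theorem piY_fi (h6 : KG6All) (w : Chart n X → Cm n → Matrix (Fin n) (Fin n) ℂ)
    (hw : IsKahler w) (Φ : Cm n → X) (hΦ : FiniteOrder w Φ)
    (U : Set X) (x : X) (hx : x ∈ U) (Q : Set X) (hUo : IsOpen U)
    (hQ : Q.Countable) (hQU : ∀ y ∈ U, ∃ q ∈ Q, Chain n X y q)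
    (hfi : (img U x hx).FiniteIndex) : VAr (FundamentalGroup X x) (2 * n) :=
  mainPiA' n X w hw Φ hΦ x _ (MonoidHom.id _) Function.surjective_id
    (growth_fi h6 w hw U x hx Q hUo hQ hQU hfi).folner

end

end Vale.Agent.P284.H446.K
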