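import Vale.Agent.P284.H636.CY.Cl
import Vale.Agent.P284.H10.CY.KA
import Vale.Agent.P284.H731.Decay
import Vale.Agent.P284.H731.FBS
import Vale.Agent.P284.H446.CYF
import Vale.Agent.P284.H446.GFi
import Vale.Agent.P284.H119.K5S
import Vale.Agent.P284.H977.K.K4
import Vale.Agent.P284.H66.V4

/-!
# P284, theorem CY (helper446): everything closed
-/

open scoped Manifold ContDiff Topology Pointwise
open Filter Set Metric Function

noncomputable section

namespace Vale.Agent.P284.H446.K

open Vale.Agent.P272.K Vale.Agent.P284.H248 Vale.Agent.P284.H894 Vale.Agent.P284.H894.G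
  Vale.Agent.P284.H894.V Vale.Agent.P284.H894.W Vale.Agent.P284.H913.V Vale.Agent.P284.H409.A
  Vale.Agent.P284.H409.K Vale.Agent.P284.H622 Vale.Agent.P284.H730.CY

theorem cyEx0 : CYEx := H636.CY.cyEx

theorem kacyAll0 : KACYAll := by
  intro n Γ _ C P K a₀ z₀ ρ hρ hball
  refine H10.CY.kacy C P K ?_ H977.K.k4Stmt H119.K.k5Stmt H66.v4Stmt a₀ z₀ ρ hρ hball
  intro F hF A hFA
  obtain ⟨φ, hφ, hb⟩ := cyEx0 n Γ C K F (H731.CY.fbStmt n Γ C F hF)
  refine ⟨φ, hφ, H731.CY.m0Concl.sign n Γ C K F φ hφ hb A hFA, ?_⟩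
  exact H731.CY.decay0 P hF.fin hFA hφ hb (by norm_num)

theorem kg6All0 : KG6All := kg6All kacyAll0

/-- theorem K for all groups: the growth of the fundamental group is subexponential -/
theorem kyFinal0 : KYFinal := kyFinal kacyAll0

end Vale.Agent.P284.H446.K
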