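import Vale.Agent.P284.H446.Cut

/-!
# P284, theorem V (helper446): subgroups of finite index and quotients on the level of `Coc`

From `C : Coc n Γ`, a subgroup `H ≤ Γ` of finite index and a surjection `π : H →* Q` one gets the data
`C.sub H π : Coc n Q` of the covering with group `Q` of the finite covering with group `H`.
-/

open scoped Manifold ContDiff Topology Pointwise ComplexConjugate ComplexOrder
open Filter Set Metric MeasureTheory

noncomputable section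

namespace Vale.Agent.P284.H446.V

open Vale.Agent.P272.K Vale.Agent.P272.K.C2 Vale.Agent.P284.H248 Vale.Agent.P284.H894
  Vale.Agent.P284.H894.V Vale.Agent.P284.H639.V

section grp
variable {Γ : Type} [Group Γ] (H : Subgroup Γ)

/-- the right coset of `g` (as the left coset of `g⁻¹`) -/
def cl (g : Γ) : Γ ⧸ H := ((g⁻¹ : Γ) : Γ ⧸ H)

/-- a representative of the right coset -/
def rp (i : Γ ⧸ H) : Γ := (Quotient.out i)⁻¹

theorem cl_rp (i : Γ ⧸ H) : cl H (rp H i) = i := by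
  unfold cl rp
  rw [inv_inv]
  exact Quotient.out_eq' i

theorem hp_mem (g : Γ) : g * (rp H (cl H g))⁻¹ ∈ H := by
  have h1 : ((g⁻¹ : Γ) : Γ ⧸ H) = ((Quotient.out (cl H g) : Γ) : Γ ⧸ H) :=
    (Quotient.out_eq' (cl H g)).symm
  rw [QuotientGroup.eq] at h1
  unfold rp
  rw [inv_inv]
  simpa using h1

/-- the part of `g` in `H` -/
def hp (g : Γ) : H := ⟨g * (rp H (cl H g))⁻¹, hp_mem H g⟩

theorem hp_mul_rp (g : Γ) : (hp H g : Γ) * rp H (cl H g) = g := by
  simp [hp]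

theorem cl_mul (h : H) (g : Γ) : cl H ((h : Γ) * g) = cl H g := by
  unfold cl
  rw [QuotientGroup.eq]
  simp

theorem hp_mul (h : H) (g : Γ) : hp H ((h : Γ) * g) = h * hp H g := by
  apply Subtype.ext
  show (h : Γ) * g * (rp H (cl H ((h : Γ) * g)))⁻¹ = (h : Γ) * (g * (rp H (cl H g))⁻¹)
  rw [cl_mul, mul_assoc]

theorem hp_rp (i : Γ ⧸ H) : hp H (rp H i) = 1 := by
  apply Subtype.ext
  show rp H i * (rp H (cl H (rp H i)))⁻¹ = 1
  rw [cl_rp, mul_inv_cancel]

theorem cl_mul' (g k : Γ) : cl H (g * k) = cl H (rp H (cl H g) * k) := by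
  conv_lhs => rw [← hp_mul_rp H g, mul_assoc]
  rw [cl_mul]

theorem hp_mul' (g k : Γ) : hp H (g * k) = hp H g * hp H (rp H (cl H g) * k) := by
  conv_lhs => rw [← hp_mul_rp H g, mul_assoc]
  rw [hp_mul]

end grp

section
variable {n : ℕ} {Γ : Type} [Group Γ] (C : Coc n Γ) (H : Subgroup Γ) [hH : H.FiniteIndex]
  {Q : Type} [Group Q] (π : H →* Q) (hπ : Function.Surjective π)

attribute [local instance] Subgroup.fintypeQuotientOfFiniteIndex

open Classical in
/-- the data of the covering with group `Q` -/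
def sub : Coc n Q where
  I := C.I × (Γ ⧸ H)
  fin := inferInstance
  ne := inferInstance
  c a := C.c a.1
  r a := C.r a.1
  r_pos a := C.r_pos a.1
  O a b := {z | z ∈ C.O a.1 b.1 ∧ cl H (rp H a.2 * C.κ a.1 b.1 z) = b.2}
  T a b := C.T a.1 b.1
  g a b := C.g a.1 b.1
  κ a b z := π (hp H (rp H a.2 * C.κ a.1 b.1 z))
  O_open a b := by
    rw [isOpen_iff_mem_nhds]
    rintro z ⟨hz, hc⟩
    filter_upwards [(C.O_open a.1 b.1).mem_nhds hz, C.κ_loc a.1 b.1 z hz] with y h1 h2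
    exact ⟨h1, by rw [h2, hc]⟩
  O_sub a b z hz := C.O_sub a.1 b.1 hz.1
  O_self a := by
    ext z
    constructor
    · rintro ⟨hz, -⟩
      rwa [C.O_self] at hz
    · intro hz
      rw [← C.O_self] at hz
      refine ⟨hz, ?_⟩
      rw [C.κ_self a.1 z hz, mul_one, cl_rp]
  T_self a z hz := C.T_self a.1 z hz.1
  g_self a z hz := C.g_self a.1 z hz.1
  κ_self a z hz := by rw [C.κ_self a.1 z hz.1, mul_one, hp_rp, map_one]
  T_mem a b z hz := by
    refine ⟨C.T_mem a.1 b.1 z hz.1, ?_⟩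
    have h1 := C.trans_κ a.1 b.1 a.1 z hz.1 (C.T_mem a.1 b.1 z hz.1)
    have h2 := C.trans_mem a.1 b.1 a.1 z hz.1 (C.T_mem a.1 b.1 z hz.1)
    rw [C.κ_self a.1 z h2] at h1
    have h3 := cl_mul' H (rp H a.2 * C.κ a.1 b.1 z) (C.κ b.1 a.1 (C.T a.1 b.1 z))
    rw [mul_assoc, ← h1, mul_one, cl_rp, hz.2] at h3
    exact h3.symm
  trans_mem a b d z hz hd := by
    refine ⟨C.trans_mem a.1 b.1 d.1 z hz.1 hd.1, ?_⟩
    rw [C.trans_κ a.1 b.1 d.1 z hz.1 hd.1, ← mul_assoc, cl_mul', hz.2]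
    exact hd.2
  trans_T a b d z hz hd := C.trans_T a.1 b.1 d.1 z hz.1 hd.1
  trans_g a b d z hz hd := C.trans_g a.1 b.1 d.1 z hz.1 hd.1
  trans_κ a b d z hz hd := by
    rw [C.trans_κ a.1 b.1 d.1 z hz.1 hd.1, ← mul_assoc, hp_mul', hz.2, map_mul]
  T_holo a b := (C.T_holo a.1 b.1).mono fun z hz => hz.1
  g_holo a b := (C.g_holo a.1 b.1).mono fun z hz => hz.1
  g_ne a b z hz := C.g_ne a.1 b.1 z hz.1
  κ_loc a b z hz := by
    filter_upwards [C.κ_loc a.1 b.1 z hz.1] with y hy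
    rw [hy]
  cover a z hz := by
    obtain ⟨b, hb, hb'⟩ := C.cover a.1 z hz
    exact ⟨(b, cl H (rp H a.2 * C.κ a.1 b z)), ⟨hb, rfl⟩, hb'⟩
  closed a b K hK hKb z hz hn := by
    by_cases h1 : z ∈ C.O a.1 b.1 ∧ C.T a.1 b.1 z ∈ K
    · have h2 : cl H (rp H a.2 * C.κ a.1 b.1 z) ≠ b.2 := fun h => hn ⟨⟨h1.1, h⟩, h1.2⟩
      filter_upwards [C.κ_loc a.1 b.1 z h1.1] with y hy
      rintro ⟨⟨-, h3⟩, -⟩
      rw [hy] at h3
      exact h2 h3
    · filter_upwards [C.closed a.1 b.1 K hK hKb z hz h1] with y hy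
      rintro ⟨⟨h3, -⟩, h4⟩
      exact hy ⟨h3, h4⟩
  N := (Finset.univ ×ˢ C.N).image fun p : (Γ ⧸ H) × Γ => π (hp H (rp H p.1 * p.2))
  κ_mem a b z hz h1 h2 := by
    rw [Finset.mem_image]
    exact ⟨(a.2, C.κ a.1 b.1 z), Finset.mem_product.2 ⟨Finset.mem_univ _,
      C.κ_mem a.1 b.1 z hz.1 h1 h2⟩, rfl⟩
  M := C.M
  M_one := C.M_one
  g_le a b z hz h1 h2 := C.g_le a.1 b.1 z hz.1 h1 h2
  T_le a b z hz h1 h2 := C.T_le a.1 b.1 z hz.1 h1 h2
  conn P hP q a q' b hq := by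
    have key := C.conn (fun g a => P (π (hp H g)) (a, cl H g)) (fun g a b z hz h1 h2 h3 => by
      have h4 := hP (π (hp H g)) (a, cl H g) (b, cl H (rp H (cl H g) * C.κ a b z)) z
        ⟨hz, rfl⟩ h1 h2 h3
      rw [hp_mul', cl_mul', map_mul]
      exact h4)
    obtain ⟨h, rfl⟩ := hπ q
    obtain ⟨h', rfl⟩ := hπ q'
    have e : ∀ (h : H) (i : Γ ⧸ H), hp H ((h : Γ) * rp H i) = h ∧ cl H ((h : Γ) * rp H i) = i :=
      fun h i => ⟨by rw [hp_mul, hp_rp, mul_one], by rw [cl_mul, cl_rp]⟩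
    have h5 := key ((h : Γ) * rp H a.2) a.1 ((h' : Γ) * rp H b.2) b.1
    simp only [(e h a.2).1, (e h a.2).2, (e h' b.2).1, (e h' b.2).2] at h5
    exact h5 hq

variable {C}

open Classical in
/-- the partition of unity -/
def PUsub (P : PU C) : PU (sub C H π hπ) where
  χ b a z := if cl H (rp H a.2 * C.κ a.1 b.1 z) = b.2 then P.χ b.1 a.1 z else 0
  smooth b a z hz := by
    have hz' : z ∈ C.Ω a.1 := hz
    by_cases hO : z ∈ C.O a.1 b.1
    · have hev : (fun y => if cl H (rp H a.2 * C.κ a.1 b.1 y) = b.2 then P.χ b.1 a.1 y else 0)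
          =ᶠ[𝓝 z] fun y => if cl H (rp H a.2 * C.κ a.1 b.1 z) = b.2 then P.χ b.1 a.1 y else 0 := by
        filter_upwards [C.κ_loc a.1 b.1 z hO] with y hy
        rw [hy]
      refine ContDiffAt.congr_of_eventuallyEq ?_ hev
      split_ifs
      · exact P.smooth b.1 a.1 z hz'
      · exact contDiffAt_const
    · have hev : (fun y => if cl H (rp H a.2 * C.κ a.1 b.1 y) = b.2 then P.χ b.1 a.1 y else 0)
          =ᶠ[𝓝 z] fun _ => 0 := by
        filter_upwards [C.closed a.1 b.1 (P.K b.1) (P.compactK b.1)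
          ((P.K_sub b.1).trans (V_sub_Ω C b.1)) z hz' (fun h => hO h.1),
          (isOpen_Ω C a.1).mem_nhds hz'] with y hy hy'
        have : P.χ b.1 a.1 y = 0 := by
          by_contra h0
          exact hy (P.supp b.1 a.1 y hy' h0)
        rw [this, ite_self]
      exact contDiffAt_const.congr_of_eventuallyEq hev
  nonneg b a z := by
    split_ifs
    · exact P.nonneg _ _ _
    · exact le_rfl
  sum_one a z hz := by
    have hz' : z ∈ C.Ω a.1 := hz
    show ∑ b : C.I × (Γ ⧸ H), _ = _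
    rw [Fintype.sum_prod_type]
    rw [← P.sum_one a.1 z hz']
    refine Finset.sum_congr rfl fun b _ => ?_
    simp
  K b := P.K b.1
  compactK b := P.compactK b.1
  K_sub b := P.K_sub b.1
  supp b a z hz h := by
    have hz' : z ∈ C.Ω a.1 := hz
    by_cases hc : cl H (rp H a.2 * C.κ a.1 b.1 z) = b.2
    · rw [if_pos hc] at h
      obtain ⟨h1, h2⟩ := P.supp b.1 a.1 z hz' h
      exact ⟨⟨h1, hc⟩, h2⟩
    · rw [if_neg hc] at h
      exact absurd rfl h
  compat b a d z hz := by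
    have h1 := P.compat b.1 a.1 d.1 z hz.1
    have hza : z ∈ C.Ω a.1 := C.O_sub _ _ hz.1
    have hTd : C.T a.1 d.1 z ∈ C.Ω d.1 := T_mem_Ω C hz.1
    by_cases h0 : P.χ b.1 a.1 z = 0
    · have h2 : P.χ b.1 d.1 (C.T a.1 d.1 z) = 0 := by rw [← h1, h0]
      show (if _ then P.χ b.1 a.1 z else 0) = if _ then P.χ b.1 d.1 (C.T a.1 d.1 z) else 0
      rw [h0, h2, ite_self, ite_self]
    · have h2 : P.χ b.1 d.1 (C.T a.1 d.1 z) ≠ 0 := by rwa [← h1]
      have h3 := (P.supp b.1 d.1 _ hTd h2).1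
      have h4 := C.trans_κ a.1 d.1 b.1 z hz.1 h3
      show (if cl H (rp H a.2 * C.κ a.1 b.1 z) = b.2 then P.χ b.1 a.1 z else 0) =
        if cl H (rp H d.2 * C.κ d.1 b.1 (C.T a.1 d.1 z)) = b.2 then
          P.χ b.1 d.1 (C.T a.1 d.1 z) else 0
      rw [h4, ← mul_assoc, cl_mul', hz.2, h1]

/-- the metric -/
def KMsub (K : KM C) : KM (sub C H π hπ) where
  w a := K.w a.1
  ku a := K.ku a.1
  change a b z hz := K.change a.1 b.1 z hz.1
  lam := K.lam
  lam_pos := K.lam_pos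
  Lam := K.Lam
  low a := K.low a.1
  up a := K.up a.1
  vol_up a := K.vol_up a.1
  vol_low a := K.vol_low a.1

/-- functions on the covering with group `Q` as functions on the covering with group `Γ` -/
def lift (u : Q → (sub C H π hπ).I → Cm n → ℝ) (γ : Γ) (a : C.I) (z : Cm n) : ℝ :=
  u (π (hp H γ)) (a, cl H γ) z

theorem lift_limFam {u : Q → (sub C H π hπ).I → Cm n → ℝ} {B : ℝ}
    (hu : LimFam (sub C H π hπ) u B) : LimFam C (lift H π hπ u) B where
  smooth γ a z hz := hu.smooth (π (hp H γ)) (a, cl H γ) z hz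
  hess γ a z hz := hu.hess (π (hp H γ)) (a, cl H γ) z hz
  compat γ a b z hz h1 h2 := by
    have h3 := hu.compat (π (hp H γ)) (a, cl H γ) (b, cl H (rp H (cl H γ) * C.κ a b z)) z
      ⟨hz, rfl⟩ h1 h2
    rw [show lift H π hπ u γ a z = u (π (hp H γ)) (a, cl H γ) z from rfl, h3]
    show _ = u (π (hp H (γ * C.κ a b z))) (b, cl H (γ * C.κ a b z)) (C.T a b z)
    rw [hp_mul' H γ (C.κ a b z), cl_mul' H γ (C.κ a b z), map_mul]
    rfl
  grad γ a z hz := hu.grad (π (hp H γ)) (a, cl H γ) z hz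
  nonconst := by
    obtain ⟨q, a, z, hz, hne⟩ := hu.nonconst
    obtain ⟨h, rfl⟩ := hπ q
    refine ⟨(h : Γ) * rp H a.2, a.1, z, hz, ?_⟩
    have e1 : hp H ((h : Γ) * rp H a.2) = h := by rw [hp_mul, hp_rp, mul_one]
    have e2 : cl H ((h : Γ) * rp H a.2) = a.2 := by rw [cl_mul, cl_rp]
    show fderiv ℝ (u (π (hp H ((h : Γ) * rp H a.2))) (a.1, cl H ((h : Γ) * rp H a.2))) z ≠ 0
    rw [e1, e2]
    exact hne

theorem lift_inv (u : Q → (sub C H π hπ).I → Cm n → ℝ) (ν : H) (hν : π ν = 1) (γ : Γ) (a : C.I)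
    (z : Cm n) : lift H π hπ u ((ν : Γ) * γ) a z = lift H π hπ u γ a z := by
  unfold lift
  rw [hp_mul, cl_mul, map_mul, hν, one_mul]

end

end Vale.Agent.P284.H446.V
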