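import Vale.Agent.P284.H639.V15
import Vale.Agent.P284.H465.V17

/-!
# P284 (helper446): the pieces of a Galois covering with their sheets
-/

open scoped Manifold ContDiff Topology Pointwise ComplexConjugate ComplexOrder
open Filter Set Metric MeasureTheory

noncomputable section

namespace Vale.Agent.P284.H446.V

open Vale.Agent.P272.K Vale.Agent.P284.H248 Vale.Agent.P284.H894 Vale.Agent.P284.H678
  Vale.Agent.P284.H894.G Vale.Agent.P284.H894.V Vale.Agent.P284.H639 Vale.Agent.P284.H639.V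

/-- The sheets of the covering `p : E → X` over the balls of `C : Coc n Γ`. -/
structure Sheets {n : ℕ} {X : Type} [TopologicalSpace X] [ChartedSpace (Cm n) X]
    {E Γ : Type} [TopologicalSpace E] [Group Γ] [MulAction Γ E] (p : E → X)
    (w : Chart n X → Cm n → Matrix (Fin n) (Fin n) ℂ) (C : Coc n Γ) where
  σ : C.I → Cm n → E
  e : C.I → Chart n X
  cont : ∀ a, ContinuousOn (σ a) (ball (C.c a) (4 * C.r a))
  src : ∀ a, ∀ z ∈ ball (C.c a) (4 * C.r a), At (e a) (p (σ a z)) ∧ e a (p (σ a z)) = z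
  cover : ∀ y : E, ∃ (γ : Γ) (a : C.I) (z : Cm n), z ∈ ball (C.c a) (2 * C.r a) ∧ γ • σ a z = y
  glue : ∀ a b, ∀ z ∈ C.O a b, C.κ a b z • σ b (C.T a b z) = σ a z
  near : ∀ (γ : Γ) (a : C.I), ∀ z ∈ ball (C.c a) (2 * C.r a), ∀ᶠ y in 𝓝 (γ • σ a z),
    e a (p y) ∈ ball (C.c a) (2 * C.r a) ∧ γ • σ a (e a (p y)) = y
  toE : ∀ u B, LimFam C u B → ∃ (v : E → ℝ) (B' : ℝ), IsPHB p w v B' ∧
    ∀ (γ : Γ) (a : C.I), ∀ z ∈ ball (C.c a) (2 * C.r a), v (γ • σ a z) = u γ a z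
  B : ℝ
  quad_le : ∀ a, ∀ z ∈ closedBall (C.c a) (4 * C.r a), ∀ ξ : Cm n,
    0 ≤ (quad (w (e a) z) ξ).re ∧ (quad (w (e a) z) ξ).re ≤ B * ∑ j, ‖ξ j‖ ^ 2

theorem exists_sheets (n : ℕ) (X : Type) [TopologicalSpace X] [T2Space X] [CompactSpace X]
    [ConnectedSpace X] [ChartedSpace (Cm n) X] [IsManifold 𝓘(ℂ, Cm n) ω X]
    (w : Chart n X → Cm n → Matrix (Fin n) (Fin n) ℂ) (hw : IsKahler w)
    (E Γ : Type) [TopologicalSpace E] [ConnectedSpace E] [Group Γ] [MulAction Γ E] (p : E → X)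
    (hG : IsGalois Γ p) : ∃ (C : Coc n Γ) (_ : PU C) (_ : KM C), Nonempty (Sheets p w C) := by
  obtain ⟨P⟩ := Vale.Agent.P284.H790.a1Stmt n X (trivL n X)
  have hy : ∀ a : P.I, ∃ y : E, p y = (P.e a).symm (P.c a) := fun a => hG.surj _
  choose y hy using hy
  have hlift : ∀ a, ∃ σ : Cm n → E, ContinuousOn σ (ball (P.c a) (4 * P.r a)) ∧
      (∀ z ∈ ball (P.c a) (4 * P.r a), p (σ z) = (P.e a).symm z) ∧ σ (P.c a) = y a := fun a =>
    exists_lift_at hG.cov (by have := P.r_pos a; positivity)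
      ((P.e a).continuousOn_symm.mono fun w hw => P.target hw) (y a) (hy a)
  choose σ hσ hπ hc using hlift
  let K : KD P Γ :=
    { κ := kap σ Γ
      self := fun a z hz => kap_eq hG.free hG.orb hπ hz (by rw [P.T_self hz.1, one_smul])
      trans := fun a b d z hz h => kap_eq hG.free hG.orb hπ (P.trans_mem hz h) (by
        rw [mul_smul, ← P.T_T (d := d) hz, kap_spec hG.orb hπ h, kap_spec hG.orb hπ hz])
      loc := fun a b z hz => kap_loc hG.cov hG.cont hG.free hG.orb hσ hπ hz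
      conn := fun Q hQ => kap_conn hG.cov hG.cont hG.free hG.orb hσ hπ Q hQ }
  have hK : ∀ a b z, z ∈ P.O a b → K.κ a b z • σ b (P.T a b z) = σ a z := fun a b z hz =>
    kap_spec hG.orb hπ hz
  have hs := fun y : E => exists_sheet2 hG hπ y
  obtain ⟨PUc⟩ := Vale.Agent.P284.H894.a4 n X (trivL n X) P Γ K
  obtain ⟨KMc⟩ := exists_KM P K hw
  obtain ⟨Bq, hBq, hq⟩ := exists_bds_pcs P hw.toIsHermitian
  refine ⟨mkCoc P K, PUc, KMc, ⟨{
    σ := σ
    e := P.e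
    cont := hσ
    src := fun a z hz => ?_
    cover := fun y => ?_
    glue := hK
    near := fun γ a z hz => ?_
    toE := fun u B hu => ?_
    B := Bq
    quad_le := fun a z hz ξ => ⟨quad_nonneg
      (hw.toIsHermitian.posDef_target (P.mem a) (P.sub a hz)).posSemidef ξ, (hq a z hz).2.1 ξ⟩ }⟩⟩
  · refine ⟨⟨P.mem a, ?_⟩, ?_⟩
    · rw [hπ a z hz]
      exact (P.e a).map_target (P.target hz)
    · rw [hπ a z hz, (P.e a).right_inv (P.target hz)]
  · obtain ⟨γ, a, h1, h2, h3⟩ := hs y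
    exact ⟨γ, a, _, h2, h3⟩
  · filter_upwards [sheet_ev2 hG hσ hπ (γ := γ) hz] with y hy
    exact ⟨hy.2.1, hy.2.2⟩
  · obtain ⟨B', hB'⟩ := vOf_phb hG hσ hπ K hK u hu hs hw.toIsHermitian
    exact ⟨vOf (K := K) hs u, B', hB', fun γ a z hz => vOf_eq hG hπ K hK u hu hs γ a hz⟩

section
variable {n : ℕ} {X : Type} [TopologicalSpace X] [ChartedSpace (Cm n) X]
  {E Γ : Type} [TopologicalSpace E] [Group Γ] [MulAction Γ E] {p : E → X}
  {w : Chart n X → Cm n → Matrix (Fin n) (Fin n) ℂ} {C : Coc n Γ}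

/-- the translates of a pluriharmonic function with bounded gradient are uniformly Lipschitz on the
sheets -/
theorem Sheets.lip (S : Sheets p w C) (hG : IsGalois Γ p) {u : E → ℝ} {B : ℝ}
    (hu : IsPHB p w u B) : ∃ L : ℝ, 0 ≤ L ∧ ∀ (γ : Γ) (a : C.I), ∀ z ∈ ball (C.c a) (2 * C.r a),
      ∀ z' ∈ ball (C.c a) (2 * C.r a), |u (γ • S.σ a z) - u (γ • S.σ a z')| ≤ L * ‖z - z'‖ := by
  set A : ℝ := |B| * (|S.B| * n) with hA
  refine ⟨√A, Real.sqrt_nonneg _, fun γ a z hz z' hz' => ?_⟩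
  have hsub : ball (C.c a) (2 * C.r a) ⊆ ball (C.c a) (4 * C.r a) :=
    ball_subset_ball (by linarith [C.r_pos a])
  set h : Cm n → ℝ := fun z => u (γ • S.σ a z) with hh
  have hd : ∀ x ∈ ball (C.c a) (2 * C.r a), DifferentiableAt ℝ h x ∧ ‖fderiv ℝ h x‖ ≤ √A := by
    intro x hx
    obtain ⟨hAt, hex⟩ := S.src a x (hsub hx)
    have hpy : p (γ • S.σ a x) = p (S.σ a x) := Vale.Agent.P284.H465.V17.p_smul hG γ _
    obtain ⟨g, h1, h2, h3⟩ := hu (γ • S.σ a x) (S.e a) (by rwa [hpy])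
    rw [hpy, hex] at h2 h3
    have hc : ContinuousAt (fun z => γ • S.σ a z) x :=
      (hG.cont γ).continuousAt.comp ((S.cont a).continuousAt (isOpen_ball.mem_nhds (hsub hx)))
    have hev : h =ᶠ[𝓝 x] g := by
      filter_upwards [hc.eventually h1, isOpen_ball.mem_nhds (hsub hx)] with y hy hy'
      rw [hh]
      simp only
      rw [hy, Vale.Agent.P284.H465.V17.p_smul hG γ _, (S.src a y hy').2]
    have hg : DifferentiableAt ℝ g x := h2.self_of_nhds.1.differentiableAt (by simp)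
    refine ⟨hg.congr_of_eventuallyEq hev, ?_⟩
    rw [hev.fderiv_eq]
    refine ContinuousLinearMap.opNorm_le_bound _ (Real.sqrt_nonneg _) fun v => ?_
    have h4 := h3 v
    rw [sum_eq_quad] at h4
    have h5 := S.quad_le a x (ball_subset_closedBall (hsub hx)) v
    have h6 : ∑ j, ‖v j‖ ^ 2 ≤ n * ‖v‖ ^ 2 := by
      calc ∑ j, ‖v j‖ ^ 2 ≤ ∑ _j : Fin n, ‖v‖ ^ 2 :=
            Finset.sum_le_sum fun j _ => pow_le_pow_left₀ (norm_nonneg _) (norm_le_pi_norm v j) 2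
        _ = n * ‖v‖ ^ 2 := by simp
    have h6' : 0 ≤ ∑ j, ‖v j‖ ^ 2 := Finset.sum_nonneg fun _ _ => sq_nonneg _
    have h7 : fderiv ℝ g x v ^ 2 ≤ A * ‖v‖ ^ 2 := by
      calc _ ≤ B * (quad (w (S.e a) x) v).re := h4
        _ ≤ |B| * (quad (w (S.e a) x) v).re := mul_le_mul_of_nonneg_right (le_abs_self B) h5.1
        _ ≤ |B| * (|S.B| * (n * ‖v‖ ^ 2)) := by
          refine mul_le_mul_of_nonneg_left ?_ (abs_nonneg B)
          calc _ ≤ S.B * ∑ j, ‖v j‖ ^ 2 := h5.2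
            _ ≤ |S.B| * ∑ j, ‖v j‖ ^ 2 := mul_le_mul_of_nonneg_right (le_abs_self _) h6'
            _ ≤ |S.B| * (n * ‖v‖ ^ 2) := mul_le_mul_of_nonneg_left h6 (abs_nonneg _)
        _ = A * ‖v‖ ^ 2 := by rw [hA]; ring
    rw [Real.norm_eq_abs]
    calc |fderiv ℝ g x v| = √(fderiv ℝ g x v ^ 2) := (Real.sqrt_sq_eq_abs _).symm
      _ ≤ √(A * ‖v‖ ^ 2) := Real.sqrt_le_sqrt h7
      _ = √A * ‖v‖ := by rw [Real.sqrt_mul (by positivity), Real.sqrt_sq (norm_nonneg _)]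
  have := (convex_ball (C.c a) (2 * C.r a)).norm_image_sub_le_of_norm_fderiv_le
    (fun x hx => (hd x hx).1) (fun x hx => (hd x hx).2) hz' hz
  rwa [Real.norm_eq_abs] at this

end

end Vale.Agent.P284.H446.V
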