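import Vale.Agent.P284.H446.CYF

/-!
# P284 (helper446, after helper35, helper622): growth of the image of `π₁(U)` in `π₁(X)`

`U` is an open set all of whose points are joined to a countable set by chains of entire curves. The
map `π₁(U) → π₁(X)` is not assumed to be surjective.
-/

open scoped Manifold ContDiff Topology Pointwise
open Filter Set Metric Function

noncomputable section

namespace Vale.Agent.P284.H446.K

open Vale.Agent.P272.K Vale.Agent.P284.H248 Vale.Agent.P284.H894 Vale.Agent.P284.H894.G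
  Vale.Agent.P284.H894.V Vale.Agent.P284.H894.W Vale.Agent.P284.H913.V Vale.Agent.P284.H409.A
  Vale.Agent.P284.H409.K Vale.Agent.P284.H622

/-- the drop of `G6`, for one manifold -/
def DropX (n : ℕ) (X : Type) [TopologicalSpace X] [ChartedSpace (Cm n) X] : Prop :=
  ∀ (E Γ : Type) [TopologicalSpace E] [ConnectedSpace E] [Group Γ]
      [MulAction Γ E] (p : E → X),
    IsGalois Γ p → ∀ (S : Set Γ), S.Finite → ¬ Subexp S → ∀ (y : E), ∀ W ∈ 𝓝 y,
    ∃ t ∈ S, ∃ u : E → ℝ, IsPsh (n := n) p u ∧ (∀ y, 0 ≤ u y ∧ u y ≤ 1) ∧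
      ∃ y' ∈ W, u y < u (t • y')

section
variable {n : ℕ} {X : Type} [TopologicalSpace X] [T2Space X] [ChartedSpace (Cm n) X]
  [IsManifold 𝓘(ℂ, Cm n) ω X]

/-- the core of `G9`: a finite set of deck transformations which move `y0` inside one component of
`p⁻¹ U` has subexponential growth -/
theorem core (h6 : DropX n X) (E Γ : Type) [TopologicalSpace E] [ConnectedSpace E] [Group Γ]
    [MulAction Γ E] (p : E → X) (hG : IsGalois Γ p) [Countable Γ] (U : Set X) (Q : Set X)
    (hUo : IsOpen U) (hQ : Q.Countable) (hQU : ∀ y ∈ U, ∃ q ∈ Q, Chain n X y q) (y0 : E)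
    (hy0 : p y0 ∈ U) (S : Set Γ) (hS : S.Finite)
    (hV : ∀ t ∈ S, t • y0 ∈ connectedComponentIn (p ⁻¹' U) y0) : Subexp S := by
  by_contra hexp
  have hlc : LocallyConnectedSpace E := locallyConnected (n := n) hG.cov.isLocalHomeomorph
  have hVo : IsOpen (connectedComponentIn (p ⁻¹' U) y0) :=
    (hUo.preimage hG.cov.continuous).connectedComponentIn
  have hVp : IsPreconnected (connectedComponentIn (p ⁻¹' U) y0) :=
    isPreconnected_connectedComponentIn
  have hW : (⋂ t ∈ S, (fun y : E => t • y) ⁻¹' connectedComponentIn (p ⁻¹' U) y0) ∈ 𝓝 y0 := by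
    rw [biInter_mem hS]
    exact fun t ht => (hG.cont t).continuousAt.preimage_mem_nhds (hVo.mem_nhds (hV t ht))
  obtain ⟨t, ht, u, hu, hu01, y', hy', hlt⟩ := h6 E Γ p hG S hS hexp y0 _ hW
  have hy'V : t • y' ∈ connectedComponentIn (p ⁻¹' U) y0 := by
    have := mem_iInter₂.1 hy' t ht
    exact this
  have hb : ∃ B : ℝ, ∀ y, |u y| ≤ B :=
    ⟨1, fun y => abs_le.2 ⟨by linarith [(hu01 y).1], (hu01 y).2⟩⟩
  have hcount : (u '' connectedComponentIn (p ⁻¹' U) y0).Countable := by
    have hfib : (p ⁻¹' Q).Countable := by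
      rw [← biUnion_of_singleton Q, preimage_iUnion₂]
      refine hQ.biUnion fun q _ => ?_
      rcases (p ⁻¹' {q}).eq_empty_or_nonempty with h | ⟨z, hz⟩
      · rw [h]; exact countable_empty
      · refine (countable_range fun γ : Γ => γ • z).mono fun z' hz' => ?_
        have h7 : p z = p z' := (mem_singleton_iff.1 hz).trans (mem_singleton_iff.1 hz').symm
        obtain ⟨γ, hγ⟩ := (hG.orb _ _).1 h7
        exact ⟨γ, hγ⟩
    refine (hfib.image u).mono ?_
    rintro _ ⟨y, hy, rfl⟩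
    have hyU : p y ∈ U := by
      have := connectedComponentIn_subset (p ⁻¹' U) y0 hy
      exact this
    obtain ⟨q, hq, hch⟩ := hQU _ hyU
    obtain ⟨z, hz, huz⟩ := H622.g8Stmt H427.g7Stmt n X E p hG.cov hG.surj y q hch
    exact ⟨z, by show p z ∈ Q; rw [hz]; exact hq, huz u hu hb⟩
  have hmem : y0 ∈ connectedComponentIn (p ⁻¹' U) y0 := mem_connectedComponentIn hy0
  have h9 := H427.g11Stmt H427.g10Stmt n X E p hG.cov u hu hb _ hVo hVp hcount y0 hmem _ hy'V
  linarith

end

/-- the end point of the lift of a loop in `U` lies in the component of `p⁻¹ U` -/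
theorem mem_of_loop {X Y : Type} [TopologicalSpace X] [TopologicalSpace Y]
    {p : Y → X} (hp : IsCoveringMap p) {U : Set X} {y : Y} (c : Path (p y) (p y))
    (hU : ∀ t, c t ∈ U) :
    (hp.monodromy (Path.Homotopic.Quotient.mk c) ⟨y, rfl⟩ : Y) ∈
      connectedComponentIn (p ⁻¹' U) y := by
  have h1 : (hp.monodromy (Path.Homotopic.Quotient.mk c) ⟨y, rfl⟩ : Y) =
      hp.liftPath c.toContinuousMap y c.source 1 := rfl
  set F := hp.liftPath c.toContinuousMap y c.source with hF
  have h4 : IsPreconnected (range F) := isPreconnected_range F.continuous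
  have h5 : range F ⊆ p ⁻¹' U := by
    rintro _ ⟨t, rfl⟩
    have h6 : p (F t) = c t := congrFun (hp.liftPath_lifts c.toContinuousMap y c.source) t
    show p (F t) ∈ U
    rw [h6]
    exact hU t
  have h6 : y ∈ range F := ⟨0, hp.liftPath_zero c.toContinuousMap y c.source⟩
  rw [h1]
  exact h4.subset_connectedComponentIn h6 h5 ⟨1, rfl⟩

/-- the image of the fundamental group of `U` in the fundamental group of `X` -/
def img {X : Type} [TopologicalSpace X] (U : Set X) (x : X) (hx : x ∈ U) :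
    Subgroup (FundamentalGroup X x) :=
  (FundamentalGroup.map (⟨Subtype.val, continuous_subtype_val⟩ : C(U, X)) ⟨x, hx⟩).range

theorem exists_loop {X : Type} [TopologicalSpace X] {U : Set X} {x : X} {hx : x ∈ U}
    {g : FundamentalGroup X x} (hg : g ∈ img U x hx) :
    ∃ c : Path x x, (∀ t, c t ∈ U) ∧ g = Path.Homotopic.Quotient.mk c := by
  obtain ⟨h, rfl⟩ := hg
  obtain ⟨c, rfl⟩ := Quotient.exists_rep (h : Path.Homotopic.Quotient _ _)
  refine ⟨c.map continuous_subtype_val, fun t => (c t).2, ?_⟩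
  rfl

/-- growth of the image, for one manifold -/
theorem growth_img' {n : ℕ} {X : Type} [TopologicalSpace X] [T2Space X] [CompactSpace X]
    [ConnectedSpace X] [ChartedSpace (Cm n) X] [IsManifold 𝓘(ℂ, Cm n) ω X]
    (h6 : DropX n X) (hcnt : ∀ (E Γ : Type) [TopologicalSpace E] [ConnectedSpace E] [Group Γ]
      [MulAction Γ E] (p : E → X), IsGalois Γ p → Countable Γ)
    (U : Set X) (x : X) (hx : x ∈ U) (Q : Set X) (hUo : IsOpen U) (hQ : Q.Countable)
    (hQU : ∀ y ∈ U, ∃ q ∈ Q, Chain n X y q) : SubexpGrowth (img U x hx) := by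
  obtain ⟨N, hN⟩ := Vale.Agent.P300.H673.exists_openEmbedding (Cm n) X
  obtain ⟨Y, Γ, tY, gΓ, aΓ, π, hsc, ht2, hcont, hfree, hcov, hsurj, horb⟩ :=
    Vale.Agent.P223.X.U.main N X hN
  have hcont' : ∀ γ : Γ, Continuous fun y : Y => γ • y := hcont
  have q := Vale.Agent.P223.R2.H968.Lift.quot π hcont hfree hcov hsurj horb
  obtain ⟨y0, rfl⟩ := hsurj x
  set e : FundamentalGroup X (π y0) ≃* Γᵐᵒᵖ :=
    q.fundamentalGroupEquiv (⟨y0, rfl⟩ : π ⁻¹' {π y0}) with he
  have hG : IsGalois Γ (π : Y → X) := ⟨hcov, hsurj, hcont', hfree, horb⟩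
  have : Countable Γ := hcnt Y Γ π hG
  intro S hS
  set f : img U (π y0) hx →* Γᵐᵒᵖ := e.toMonoidHom.comp (img U (π y0) hx).subtype with hf
  have hfi : Function.Injective f := e.injective.comp Subtype.val_injective
  refine H622.subexp_of_image f hfi ?_
  refine subexp_op ?_
  refine core h6 Y Γ π hG U Q hUo hQ hQU y0 hx _ ((hS.image _).image _) ?_
  rintro _ ⟨_, ⟨s, hs, rfl⟩, rfl⟩
  obtain ⟨c, hcU, hc⟩ := exists_loop s.2
  have h1 : (MulOpposite.unop (f s)) • y0 =
      (q.isCoveringMap.monodromy (s : FundamentalGroup X (π y0)) ⟨y0, rfl⟩ : Y) :=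
    q.unop_fundamentalGroupToMulOpposite_smul
  rw [h1, hc]
  exact mem_of_loop q.isCoveringMap c hcU

/-- **The image of `π₁(U)` in `π₁(X)` has subexponential growth**, `X` compact Kähler. -/
theorem growth_img (h6 : KG6All) {n : ℕ} {X : Type} [TopologicalSpace X] [T2Space X]
    [CompactSpace X] [ConnectedSpace X] [ChartedSpace (Cm n) X] [IsManifold 𝓘(ℂ, Cm n) ω X]
    (w : Chart n X → Cm n → Matrix (Fin n) (Fin n) ℂ) (hw : IsKahler w)
    (U : Set X) (x : X) (hx : x ∈ U) (Q : Set X) (hUo : IsOpen U) (hQ : Q.Countable)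
    (hQU : ∀ y ∈ U, ∃ q ∈ Q, Chain n X y q) : SubexpGrowth (img U x hx) := by
  refine growth_img' (n := n) (fun E Γ _ _ _ _ p hG => h6 n X w hw E Γ p hG) ?_ U x hx Q hUo hQ hQU
  intro E Γ _ _ _ _ p hG
  obtain ⟨C, -⟩ := H35.A9.exists_shsK n X w hw E Γ p hG
  exact H977.K.countable_of_fg (H35.W.coc_fg C)

end Vale.Agent.P284.H446.K
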