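import Vale.Agent.P284.H894.V.V13
import Vale.Agent.P284.H639.V5

/-!
# P284, theorem V (helper446): the cut-off functions `phi P F` (used in V7 and V10)
-/

open scoped Manifold ContDiff Topology Pointwise ComplexConjugate ComplexOrder
open Filter Set Metric MeasureTheory

noncomputable section

namespace Vale.Agent.P284.H446.V

open Vale.Agent.P272.K Vale.Agent.P272.K.C2 Vale.Agent.P284.H248 Vale.Agent.P284.H894
  Vale.Agent.P284.H894.V Vale.Agent.P284.H639.V

section
variable {n : ℕ} {Γ : Type} [Group Γ] {C : Coc n Γ}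

open Classical in
/-- the cut-off function of the set `F` of pieces -/
def phi (P : PU C) (F : Set Γ) (γ : Γ) (a : C.I) (z : Cm n) : ℝ :=
  (C.Ω a).indicator (fun y => ∑ b, if γ * C.κ a b y ∈ F then P.χ b a y else 0) z

open Classical in
/-- the coefficient `[γ κ_ab(z) ∈ F]` -/
def cf (F : Set Γ) (γ : Γ) (a b : C.I) (z : Cm n) : ℝ := if γ * C.κ a b z ∈ F then 1 else 0

theorem cf_nonneg (F : Set Γ) (γ : Γ) (a b : C.I) (z : Cm n) : 0 ≤ cf (C := C) F γ a b z := by
  unfold cf; split_ifs <;> norm_num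

theorem cf_le_one (F : Set Γ) (γ : Γ) (a b : C.I) (z : Cm n) : cf (C := C) F γ a b z ≤ 1 := by
  unfold cf; split_ifs <;> norm_num

theorem phi_eq (P : PU C) (F : Set Γ) (γ : Γ) {a : C.I} {z : Cm n} (hz : z ∈ C.Ω a) :
    phi P F γ a z = ∑ b, cf F γ a b z * P.χ b a z := by
  classical
  unfold phi
  rw [indicator_of_mem hz]
  refine Finset.sum_congr rfl fun b _ => ?_
  unfold cf
  split_ifs <;> simp

/-- near `z` the cut-off function is a sum of functions of the partition of unity -/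
theorem phi_ev (P : PU C) (F : Set Γ) (γ : Γ) {a : C.I} {z : Cm n} (hz : z ∈ C.Ω a) :
    phi P F γ a =ᶠ[𝓝 z] fun y => ∑ b, cf F γ a b z * P.χ b a y := by
  have h1 : ∀ b, ∀ᶠ y in 𝓝 z, cf F γ a b y * P.χ b a y = cf F γ a b z * P.χ b a y := by
    intro b
    by_cases hb : z ∈ C.O a b
    · filter_upwards [C.κ_loc a b z hb] with y hy
      unfold cf
      rw [hy]
    · filter_upwards [C.closed a b (P.K b) (P.compactK b) ((P.K_sub b).trans (V_sub_Ω C b)) z hz
        (fun h => hb h.1), (isOpen_Ω C a).mem_nhds hz] with y hy hy'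
      have : P.χ b a y = 0 := by
        by_contra h0
        exact hy (P.supp b a y hy' h0)
      rw [this, mul_zero, mul_zero]
  have h2 : ∀ᶠ y in 𝓝 z, ∀ b, cf F γ a b y * P.χ b a y = cf F γ a b z * P.χ b a y :=
    eventually_all.2 h1
  filter_upwards [h2, (isOpen_Ω C a).mem_nhds hz] with y hy hy'
  rw [phi_eq P F γ hy']
  exact Finset.sum_congr rfl fun b _ => hy b

theorem phi_nonneg (P : PU C) (F : Set Γ) (γ : Γ) (a : C.I) (z : Cm n) : 0 ≤ phi P F γ a z := by
  by_cases hz : z ∈ C.Ω a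
  · rw [phi_eq P F γ hz]
    exact Finset.sum_nonneg fun b _ => mul_nonneg (cf_nonneg _ _ _ _ _) (P.nonneg _ _ _)
  · unfold phi
    rw [indicator_of_notMem hz]

theorem phi_le_one (P : PU C) (F : Set Γ) (γ : Γ) (a : C.I) (z : Cm n) : phi P F γ a z ≤ 1 := by
  by_cases hz : z ∈ C.Ω a
  · rw [phi_eq P F γ hz, ← P.sum_one a z hz]
    refine Finset.sum_le_sum fun b _ => ?_
    exact mul_le_of_le_one_left (P.nonneg _ _ _) (cf_le_one _ _ _ _ _)
  · unfold phi
    rw [indicator_of_notMem hz]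
    exact zero_le_one

/-- `χ_b ≠ 0` on the piece `V a` implies `κ_ab ∈ N`. -/
theorem κ_mem_of_χ (P : PU C) {a b : C.I} {z : Cm n} (hz : z ∈ C.V a) (h : P.χ b a z ≠ 0) :
    C.κ a b z ∈ C.N := by
  obtain ⟨h1, h2⟩ := P.supp b a z (V_sub_Ω C a hz) h
  exact C.κ_mem a b z h1 hz (P.K_sub b h2)

/-- the cut-off is `1` on the pieces `γ` with `γ N ⊆ F` -/
theorem phi_eq_one (P : PU C) {F : Set Γ} {γ : Γ} (h : ∀ g ∈ C.N, γ * g ∈ F) {a : C.I} {z : Cm n}
    (hz : z ∈ C.V a) : phi P F γ a z = 1 := by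
  rw [phi_eq P F γ (V_sub_Ω C a hz), ← P.sum_one a z (V_sub_Ω C a hz)]
  refine Finset.sum_congr rfl fun b _ => ?_
  by_cases hb : P.χ b a z = 0
  · rw [hb, mul_zero]
  · unfold cf
    rw [if_pos (h _ (κ_mem_of_χ P hz hb)), one_mul]

/-- the cut-off is `0` on the pieces `γ` with `γ N` disjoint from `F` -/
theorem phi_eq_zero (P : PU C) {F : Set Γ} {γ : Γ} (h : ∀ g ∈ C.N, γ * g ∉ F) {a : C.I} {z : Cm n}
    (hz : z ∈ C.V a) : phi P F γ a z = 0 := by
  rw [phi_eq P F γ (V_sub_Ω C a hz)]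
  refine Finset.sum_eq_zero fun b _ => ?_
  by_cases hb : P.χ b a z = 0
  · rw [hb, mul_zero]
  · unfold cf
    rw [if_neg (h _ (κ_mem_of_χ P hz hb)), zero_mul]

theorem isTst_phi (P : PU C) {F : Set Γ} (hF : F.Finite) : IsTst C (phi P F) where
  smooth γ a z hz := by
    refine ContDiffAt.congr_of_eventuallyEq ?_ (phi_ev P F γ hz)
    exact ContDiffAt.sum fun b _ => contDiffAt_const.mul (P.smooth b a z hz)
  compat γ a d z hz := by
    have hz' := O_sub_Ω C hz
    have hT := T_mem_Ω C hz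
    rw [phi_eq P F γ hz', phi_eq P F _ hT]
    refine Finset.sum_congr rfl fun b _ => ?_
    rw [← P.compat b a d z hz]
    by_cases hb : P.χ b a z = 0
    · rw [hb, mul_zero, mul_zero]
    · have hb' : P.χ b d (C.T a d z) ≠ 0 := by rwa [← P.compat b a d z hz]
      have h1 := (P.supp b d _ hT hb').1
      unfold cf
      rw [C.trans_κ a d b z hz h1, mul_assoc]
  fin := by
    have hfin : (image2 (fun x y : Γ => x * y⁻¹) F (C.N : Set Γ)).Finite :=
      hF.image2 _ C.N.finite_toSet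
    refine hfin.subset ?_
    rintro γ ⟨a, z, hz, hne⟩
    by_contra hγ
    refine hne (phi_eq_zero P (fun g hg hm => hγ ?_) hz)
    exact ⟨γ * g, hm, g, hg, by simp⟩
  out γ a z hz := indicator_of_notMem hz _

/-- the gradient of the cut-off vanishes on the pieces `γ` with `γ N ⊆ F` -/
theorem gr_phi_eq_zero (P : PU C) (K : KM C) {F : Set Γ} {γ : Γ} (h : ∀ g ∈ C.N, γ * g ∈ F)
    {a : C.I} {z : Cm n} (hz : z ∈ C.V a) (f : Cm n → ℝ) : gr (K.w a) (phi P F γ a) f z = 0 := by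
  have e : phi P F γ a =ᶠ[𝓝 z] fun _ => 1 := by
    filter_upwards [isOpen_ball.mem_nhds hz] with y hy using phi_eq_one P h hy
  rw [gr_congr e (EventuallyEq.refl _ f)]
  have : ∀ j : Fin n, dz j (fun _ : Cm n => ((1 : ℝ) : ℂ)) z = 0 := fun j => dz_const j _
  simp only [gr, this]
  simp

theorem gr_phi_eq_zero' (P : PU C) (K : KM C) {F : Set Γ} {γ : Γ} (h : ∀ g ∈ C.N, γ * g ∉ F)
    {a : C.I} {z : Cm n} (hz : z ∈ C.V a) (f : Cm n → ℝ) : gr (K.w a) (phi P F γ a) f z = 0 := by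
  refine gr_eq_zero ?_
  filter_upwards [isOpen_ball.mem_nhds hz] with y hy using phi_eq_zero P h hy

/-- a continuous function on `Ω a` is bounded on `V a` -/
theorem bdd_V (C : Coc n Γ) (a : C.I) {f : Cm n → ℝ} (hf : ContinuousOn f (C.Ω a)) :
    ∃ B : ℝ, 0 ≤ B ∧ ∀ z ∈ C.V a, |f z| ≤ B := by
  have h1 : closedBall (C.c a) (3 * C.r a) ⊆ C.Ω a :=
    closedBall_subset_ball (by linarith [C.r_pos a])
  obtain ⟨B, hB⟩ := (isCompact_closedBall (C.c a) (3 * C.r a)).exists_bound_of_continuousOn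
    (hf.mono h1)
  refine ⟨max B 0, le_max_right _ _, fun z hz => ?_⟩
  exact (hB z (ball_subset_closedBall hz)).trans (le_max_left _ _)

/-- the gradients of the functions of the partition of unity are bounded -/
theorem exists_gr_χ (P : PU C) (K : KM C) : ∃ B : ℝ, 0 < B ∧ ∀ a b b', ∀ z ∈ C.V a,
    |gr (K.w a) (P.χ b a) (P.χ b' a) z| ≤ B := by
  have h1 : ∀ p : C.I × C.I × C.I, ∃ B : ℝ, 0 ≤ B ∧ ∀ z ∈ C.V p.1,
      |gr (K.w p.1) (P.χ p.2.1 p.1) (P.χ p.2.2 p.1) z| ≤ B := fun p =>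
    bdd_V C p.1 fun z hz => (smooth_gr (K.ku p.1) hz (P.smooth _ _ z hz)
      (P.smooth _ _ z hz)).continuousAt.continuousWithinAt
  choose B hB0 hB using h1
  refine ⟨∑ p, B p + 1, by linarith [Finset.sum_nonneg fun p (_ : p ∈ Finset.univ) => hB0 p],
    fun a b b' z hz => ?_⟩
  refine (hB (a, b, b') z hz).trans ?_
  have := Finset.single_le_sum (fun p _ => hB0 p) (Finset.mem_univ (a, b, b'))
  linarith

/-- the gradients of all the cut-off functions are bounded by one constant -/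
theorem exists_gr_phi (hp : VPStmt) (P : PU C) (K : KM C) : ∃ B : ℝ, 0 < B ∧
    (∀ a b, ∀ z ∈ C.V a, gr (K.w a) (P.χ b a) (P.χ b a) z ≤ B) ∧
    ∀ (F : Set Γ) (γ : Γ) (a), ∀ z ∈ C.V a, gr (K.w a) (phi P F γ a) (phi P F γ a) z ≤ B := by
  obtain ⟨B, hB0, hB⟩ := exists_gr_χ P K
  have hI : (1 : ℝ) ≤ Fintype.card C.I := by exact_mod_cast Fintype.card_pos
  refine ⟨(Fintype.card C.I : ℝ) * (Fintype.card C.I * B), by positivity, fun a b z hz => ?_,
    fun F γ a z hz => ?_⟩
  · refine ((le_abs_self _).trans (hB a b b z hz)).trans ?_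
    nlinarith [mul_le_mul hI hI zero_le_one (by linarith), hB0.le]
  · have hz' := V_sub_Ω C a hz
    have hpos := (K.ku a).pos z hz'
    have hs : ∀ b ∈ (Finset.univ : Finset C.I),
        ContDiffAt ℝ ∞ (fun y => cf F γ a b z * P.χ b a y) z := fun b _ =>
      contDiffAt_const.mul (P.smooth b a z hz')
    have hd : ∀ b, DifferentiableAt ℝ (P.χ b a) z := fun b =>
      (P.smooth b a z hz').differentiableAt (by simp)
    rw [gr_congr (phi_ev P F γ hz') (phi_ev P F γ hz'), gr_sum Finset.univ hs]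
    have h2 : ∀ b, gr (K.w a) (fun y => cf F γ a b z * P.χ b a y)
        (fun y => ∑ b', cf F γ a b' z * P.χ b' a y) z =
        ∑ b', cf F γ a b z * (cf F γ a b' z * gr (K.w a) (P.χ b' a) (P.χ b a) z) := by
      intro b
      rw [Asm.gr_smul _ (hd b), hp.symm _ _ _ _ hpos, gr_sum Finset.univ hs, Finset.mul_sum]
      refine Finset.sum_congr rfl fun b' _ => ?_
      rw [Asm.gr_smul _ (hd b')]
    simp only [h2]
    have h3 : ∀ b b', cf F γ a b z * (cf F γ a b' z * gr (K.w a) (P.χ b' a) (P.χ b a) z) ≤ B := by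
      intro b b'
      have h4 := hB a b' b z hz
      have h5 : |cf F γ a b z * (cf F γ a b' z * gr (K.w a) (P.χ b' a) (P.χ b a) z)| ≤ B := by
        rw [abs_mul, abs_mul, abs_of_nonneg (cf_nonneg F γ a b z),
          abs_of_nonneg (cf_nonneg F γ a b' z)]
        calc _ ≤ 1 * (1 * |gr (K.w a) (P.χ b' a) (P.χ b a) z|) := by
              refine mul_le_mul (cf_le_one _ _ _ _ _) ?_ (by
                exact mul_nonneg (cf_nonneg _ _ _ _ _) (abs_nonneg _)) zero_le_one
              exact mul_le_mul_of_nonneg_right (cf_le_one _ _ _ _ _) (abs_nonneg _)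
          _ ≤ B := by rw [one_mul, one_mul]; exact h4
      exact (le_abs_self _).trans h5
    calc _ ≤ ∑ _b : C.I, ∑ _b' : C.I, B :=
          Finset.sum_le_sum fun b _ => Finset.sum_le_sum fun b' _ => h3 b b'
      _ = _ := by simp [Finset.card_univ]

end

end Vale.Agent.P284.H446.V
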