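import Vale.Agent.P284.H894.G.Amen
import Mathlib.GroupTheory.Coset.Basic

/-!
# P284: subgroups and quotients of amenable groups (Følner's condition)
-/

open scoped Topology Pointwise
open Filter Set Metric

noncomputable section

namespace Vale.Agent.P284.H446.QC

open Vale.Agent.P284.H894.G

variable {Γ : Type*} [Group Γ]

/-- A subgroup of an amenable group is amenable. -/
theorem folner_subgroup (h : Folner Γ) (H : Subgroup Γ) : Folner H := by
  classical
  intro S hS ε hε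
  set k : ℕ := S.ncard with hk
  have hk1 : (0 : ℝ) < k + 1 := by positivity
  obtain ⟨F, hF, hne, hFs⟩ := h ((↑) '' S) (hS.image _) (ε / (k + 1)) (by positivity)
  let c : Γ → Quotient (QuotientGroup.rightRel H) := Quotient.mk _
  have hc : ∀ x y : Γ, c x = c y ↔ y * x⁻¹ ∈ H := fun x y => by
    show Quotient.mk _ x = Quotient.mk _ y ↔ _
    rw [Quotient.eq, QuotientGroup.rightRel_apply]
  have hcm : ∀ (s : H) (x : Γ), c (s * x) = c x := fun s x => by
    rw [hc, mul_inv_rev, ← mul_assoc, mul_inv_cancel, one_mul]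
    exact H.inv_mem s.2
  set Ff : Finset Γ := hF.toFinset with hFf
  have hFc : (Ff : Set Γ) = F := hF.coe_toFinset
  set I := Ff.image c with hI
  let FC : Quotient (QuotientGroup.rightRel H) → Set Γ := fun C => {y | y ∈ F ∧ c y = C}
  have hFCf : ∀ C, (FC C).Finite := fun C => hF.subset fun y hy => hy.1
  -- decomposition of a finite set whose classes are in `I`
  have hdec : ∀ A : Set Γ, A.Finite → (∀ y ∈ A, c y ∈ I) →
      A.ncard = ∑ C ∈ I, {y | y ∈ A ∧ c y = C}.ncard := by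
    intro A hA hAI
    rw [Set.ncard_eq_toFinset_card A hA,
      Finset.card_eq_sum_card_fiberwise (f := c) (t := I) (fun y hy => hAI y (by simpa using hy))]
    refine Finset.sum_congr rfl fun C _ => ?_
    rw [← Set.ncard_coe_finset]
    congr 1
    ext y
    simp
  have h1 : F.ncard = ∑ C ∈ I, (FC C).ncard := hdec F hF fun y hy =>
    Finset.mem_image.2 ⟨y, by rw [hFf, Set.Finite.mem_toFinset]; exact hy, rfl⟩
  have h2 : ∀ s : H, (((s : Γ) • F) \ F).ncard =
      ∑ C ∈ I, (((s : Γ) • FC C) \ FC C).ncard := by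
    intro s
    rw [hdec _ ((hF.smul_set).subset sdiff_subset) (by
      rintro y ⟨⟨x, hx, rfl⟩, -⟩
      refine Finset.mem_image.2 ⟨x, by rw [hFf, Set.Finite.mem_toFinset]; exact hx, ?_⟩
      exact (hcm s x).symm)]
    refine Finset.sum_congr rfl fun C _ => ?_
    congr 1
    ext y
    constructor
    · rintro ⟨⟨⟨x, hx, hxy⟩, h3⟩, h4⟩
      have hxy' : (s : Γ) * x = y := hxy
      refine ⟨⟨x, ⟨hx, ?_⟩, hxy⟩, fun h5 => h3 h5.1⟩
      rw [← h4, ← hxy', hcm]
    · rintro ⟨⟨x, ⟨hx, hx2⟩, hxy⟩, h3⟩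
      have hxy' : (s : Γ) * x = y := hxy
      have h4 : c y = C := by rw [← hxy', hcm, hx2]
      exact ⟨⟨⟨x, hx, hxy⟩, fun h5 => h3 ⟨h5, h4⟩⟩, h4⟩
  have hInon : I.Nonempty := by
    obtain ⟨y, hy⟩ := hne
    exact ⟨c y, Finset.mem_image.2 ⟨y, by rw [hFf, Set.Finite.mem_toFinset]; exact hy, rfl⟩⟩
  have h3 : ∑ C ∈ I, ∑ s ∈ hS.toFinset, ((((s : Γ) • FC C) \ FC C).ncard : ℝ) ≤
      ∑ C ∈ I, ε * ((FC C).ncard : ℝ) := by
    rw [Finset.sum_comm, ← Finset.mul_sum]
    have h4 : ∀ s ∈ hS.toFinset, ∑ C ∈ I, ((((s : Γ) • FC C) \ FC C).ncard : ℝ) ≤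
        ε / (k + 1) * F.ncard := by
      intro s hs
      have h5 := hFs s ⟨s, by simpa using hs, rfl⟩
      rw [h2 s] at h5
      exact_mod_cast h5
    refine (Finset.sum_le_sum h4).trans ?_
    rw [Finset.sum_const, ← Set.ncard_eq_toFinset_card S hS, nsmul_eq_mul, h1]
    push_cast
    rw [← mul_assoc]
    refine mul_le_mul_of_nonneg_right ?_ (by positivity)
    rw [← mul_div_assoc, div_le_iff₀ hk1]
    nlinarith
  obtain ⟨C, hC, h4⟩ := Finset.exists_le_of_sum_le hInon h3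
  obtain ⟨x, hx, hxC⟩ := Finset.mem_image.1 hC
  have hxF : x ∈ FC C := ⟨by simpa [hFf] using hx, hxC⟩
  let f : H → Γ := fun h => h * x
  have hf : Function.Injective f := fun a b hab => Subtype.ext (mul_right_cancel hab)
  have hran : FC C ⊆ Set.range f := by
    intro y hy
    have h5 : c x = c y := by rw [hy.2, hxC]
    exact ⟨⟨y * x⁻¹, (hc x y).1 h5⟩, by simp [f]⟩
  have h5 : f '' (f ⁻¹' FC C) = FC C := Set.image_preimage_eq_of_subset hran
  refine ⟨f ⁻¹' FC C, (hFCf C).preimage hf.injOn, ⟨1, by simpa [f] using hxF⟩, fun s hs => ?_⟩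
  have h6 : f '' ((s • (f ⁻¹' FC C)) \ (f ⁻¹' FC C)) = ((s : Γ) • FC C) \ FC C := by
    rw [Set.image_sdiff hf, h5]
    congr 1
    ext y
    constructor
    · rintro ⟨_, ⟨h, hh, rfl⟩, rfl⟩
      refine ⟨f h, hh, ?_⟩
      show (s : Γ) * (h * x) = ((s * h : H) : Γ) * x
      rw [Subgroup.coe_mul, mul_assoc]
    · rintro ⟨z, hz, rfl⟩
      obtain ⟨h, rfl⟩ := hran hz
      refine ⟨s * h, ⟨h, hz, rfl⟩, ?_⟩
      show ((s * h : H) : Γ) * x = (s : Γ) * (h * x)
      rw [Subgroup.coe_mul, mul_assoc]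
  have h7 : ((s • (f ⁻¹' FC C)) \ (f ⁻¹' FC C)).ncard = (((s : Γ) • FC C) \ FC C).ncard := by
    rw [← h6, Set.ncard_image_of_injective _ hf]
  have h8 : (f ⁻¹' FC C).ncard = (FC C).ncard := by
    conv_rhs => rw [← h5]
    rw [Set.ncard_image_of_injective _ hf]
  rw [h7, h8]
  refine le_trans ?_ h4
  exact Finset.single_le_sum (f := fun s : H => ((((s : Γ) • FC C) \ FC C).ncard : ℝ))
    (fun _ _ => by positivity) (by simpa using hs)

/-- Amenability is invariant under isomorphisms. -/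
theorem folner_iso {Q : Type*} [Group Q] (h : Folner Γ) (e : Γ ≃* Q) : Folner Q := by
  intro S hS ε hε
  obtain ⟨F, hF, hne, hs⟩ := h (e.symm '' S) (hS.image _) ε hε
  refine ⟨e '' F, hF.image _, hne.image _, fun s hsS => ?_⟩
  have h1 := hs (e.symm s) ⟨s, hsS, rfl⟩
  have h2 : (s • (e '' F)) \ (e '' F) = e '' ((e.symm s • F) \ F) := by
    rw [Set.image_sdiff e.injective]
    congr 1
    ext y
    constructor
    · rintro ⟨_, ⟨x, hx, rfl⟩, rfl⟩
      refine ⟨e.symm s * x, ⟨x, hx, rfl⟩, ?_⟩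
      show e (e.symm s * x) = s * e x
      rw [map_mul, MulEquiv.apply_symm_apply]
    · rintro ⟨_, ⟨x, hx, rfl⟩, rfl⟩
      refine ⟨e x, ⟨x, hx, rfl⟩, ?_⟩
      show s * e x = e (e.symm s * x)
      rw [map_mul, MulEquiv.apply_symm_apply]
  rw [h2, Set.ncard_image_of_injective _ e.injective, Set.ncard_image_of_injective _ e.injective]
  exact h1

end Vale.Agent.P284.H446.QC
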