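import Vale.Agent.P284.H894.V.Defs
import Mathlib.Topology.Covering.Quotient
import Mathlib.Topology.Algebra.ConstMulAction

/-!
# P284: intermediate Galois coverings

If `E → X` is a Galois covering with group `Γ` and `π : Γ → Q` is onto, then `E / ker π → X` is a Galois
covering with group `Q`.
-/

open scoped Manifold ContDiff Topology Pointwise ComplexConjugate
open Filter Set Metric MeasureTheory

noncomputable section

namespace Vale.Agent.P284.H446.QC

open Vale.Agent.P272.K Vale.Agent.P284.H894.G Vale.Agent.P284.H894.V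

section
variable {X E Γ : Type} [TopologicalSpace X] [TopologicalSpace E] [Group Γ] [MulAction Γ E]
  {p : E → X}

lemma disj (hp : IsGalois Γ p) (y : E) : ∃ U, IsOpen U ∧ y ∈ U ∧
    ∀ g : Γ, ((g • ·) '' U ∩ U).Nonempty → g = 1 := by
  obtain ⟨e, hy, he⟩ := hp.cov.isLocalHomeomorph y
  refine ⟨e.source, e.open_source, hy, ?_⟩
  rintro g ⟨_, ⟨x, hx, rfl⟩, hgx⟩
  apply hp.free g x
  refine e.injOn hgx hx ?_
  rw [← he]
  exact ((hp.orb x (g • x)).2 ⟨g, rfl⟩).symm

variable {Q : Type} [Group Q]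

/-- The intermediate covering -/
theorem exists_quot (hp : IsGalois Γ p) (π : Γ →* Q) (hπ : Function.Surjective π) :
    ∃ (E' : Type) (_ : TopologicalSpace E') (_ : MulAction Q E') (pr : E → E') (p' : E' → X),
      IsGalois Q p' ∧ Continuous pr ∧ Function.Surjective pr ∧ (∀ y, p' (pr y) = p y) ∧
        (∀ γ y, pr (γ • y) = π γ • pr y) ∧ ∀ y y', pr y = pr y' ↔ ∃ γ, π γ = 1 ∧ γ • y = y' := by
  classical
  have : ContinuousConstSMul π.ker E := ⟨fun γ => hp.cont γ⟩
  let S : Setoid E := MulAction.orbitRel π.ker E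
  have hS : ∀ y y' : E, S y y' ↔ ∃ γ : Γ, π γ = 1 ∧ γ • y = y' := by
    intro y y'
    show y ∈ MulAction.orbit π.ker y' ↔ _
    constructor
    · rintro ⟨g, hg⟩
      have hg' : (g : Γ) • y' = y := hg
      refine ⟨(g : Γ)⁻¹, ?_, ?_⟩
      · rw [map_inv, g.2, inv_one]
      · rw [← hg', inv_smul_smul]
    · rintro ⟨γ, h1, h2⟩
      refine ⟨⟨γ⁻¹, ?_⟩, ?_⟩
      · rw [MonoidHom.mem_ker, map_inv, h1, inv_one]
      · show γ⁻¹ • y' = y
        rw [← h2, inv_smul_smul]
  let E' : Type := Quotient S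
  let pr : E → E' := Quotient.mk S
  have hprc : Continuous pr := continuous_quotient_mk'
  have hpro : IsOpenMap pr := isOpenMap_quotient_mk'_mul (Γ := π.ker) (T := E)
  have hprs : Function.Surjective pr := Quotient.mk_surjective
  have hpre : ∀ y y', pr y = pr y' ↔ ∃ γ, π γ = 1 ∧ γ • y = y' := fun y y' => by
    rw [← hS y y']
    exact Quotient.eq
  let p' : E' → X := Quotient.lift p fun y y' h => by
    obtain ⟨γ, -, h2⟩ := (hS y y').1 h
    exact (hp.orb y y').2 ⟨γ, h2⟩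
  have hp' : ∀ y, p' (pr y) = p y := fun y => rfl
  let s : Q → Γ := Function.surjInv hπ
  have hs : ∀ q, π (s q) = q := Function.surjInv_eq hπ
  have hact : ∀ (γ γ' : Γ) (y y' : E), π γ = π γ' → pr y = pr y' → pr (γ • y) = pr (γ' • y') := by
    intro γ γ' y y' h1 h2
    obtain ⟨δ, h3, h4⟩ := (hpre y y').1 h2
    refine (hpre _ _).2 ⟨γ' * δ * γ⁻¹, ?_, ?_⟩
    · rw [map_mul, map_mul, map_inv, h3, h1, mul_one, mul_inv_cancel]
    · rw [mul_smul, mul_smul, inv_smul_smul, h4]
  let A : MulAction Q E' :=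
    { smul := fun q => Quotient.lift (fun y => pr (s q • y)) fun y y' h =>
        hact _ _ _ _ rfl ((hpre y y').2 ((hS y y').1 h))
      one_smul := fun b => by
        obtain ⟨y, rfl⟩ := hprs b
        show pr (s 1 • y) = pr y
        conv_rhs => rw [← one_smul Γ y]
        exact hact _ _ _ _ (by rw [hs, map_one]) rfl
      mul_smul := fun q q' b => by
        obtain ⟨y, rfl⟩ := hprs b
        show pr (s (q * q') • y) = pr (s q • s q' • y)
        rw [← mul_smul]
        exact hact _ _ _ _ (by rw [hs, map_mul, hs, hs]) rfl }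
  have hprsmul : ∀ γ y, pr (γ • y) = π γ • pr y := fun γ y =>
    hact γ (s (π γ)) y y (hs _).symm rfl
  have hcont : ∀ q : Q, Continuous fun b : E' => q • b := by
    intro q
    exact Continuous.quotient_lift (hprc.comp (hp.cont (s q))) _
  have horb : ∀ b b' : E', p' b = p' b' ↔ ∃ q : Q, q • b = b' := by
    intro b b'
    obtain ⟨y, rfl⟩ := hprs b
    obtain ⟨y', rfl⟩ := hprs b'
    rw [hp', hp', hp.orb]
    constructor
    · rintro ⟨γ, rfl⟩
      exact ⟨π γ, (hprsmul γ y).symm⟩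
    · rintro ⟨q, hq⟩
      have h1 : pr (s q • y) = pr y' := by rw [hprsmul, hs]; exact hq
      obtain ⟨δ, -, h3⟩ := (hpre _ _).1 h1
      exact ⟨δ * s q, by rw [mul_smul, h3]⟩
  have hdis : ∀ b : E', ∃ U ∈ 𝓝 b, ∀ q : Q, ((q • ·) '' U ∩ U).Nonempty → q = 1 := by
    intro b
    obtain ⟨y, rfl⟩ := hprs b
    obtain ⟨W, hW, hyW, hd⟩ := disj hp y
    refine ⟨pr '' W, (hpro W hW).mem_nhds ⟨y, hyW, rfl⟩, ?_⟩
    rintro q ⟨_, ⟨_, ⟨x, hx, rfl⟩, rfl⟩, ⟨x', hx', h⟩⟩
    have h1 : pr x' = pr (s q • x) := by rw [hprsmul, hs]; exact h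
    obtain ⟨δ, h2, h3⟩ := (hpre _ _).1 h1
    have h4 := hd (δ⁻¹ * s q) ⟨x', ⟨x, hx, by
      show (δ⁻¹ * s q) • x = x'
      rw [mul_smul, ← h3, inv_smul_smul]⟩, hx'⟩
    have h5 := congrArg π h4
    rw [map_mul, map_inv, h2, hs, inv_one, one_mul, map_one] at h5
    exact h5
  have hcov : IsQuotientCoveringMap p' Q :=
    { toIsQuotientMap := by
        have h1 : Topology.IsQuotientMap p :=
          hp.cov.isLocalHomeomorph.isOpenMap.isQuotientMap hp.cov.continuous hp.surj
        have h2 : Continuous p' := Continuous.quotient_lift hp.cov.continuous _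
        exact Topology.IsQuotientMap.of_comp hprc h2 (by exact h1)
      toContinuousConstSMul := ⟨hcont⟩
      apply_eq_iff_mem_orbit := by
        intro b b'
        rw [eq_comm, horb]
        rfl
      disjoint := hdis }
  refine ⟨E', inferInstance, A, pr, p', ⟨hcov.isCoveringMap, ?_, hcont, ?_, horb⟩, hprc, hprs,
    hp', hprsmul, hpre⟩
  · intro x
    obtain ⟨y, rfl⟩ := hp.surj x
    exact ⟨pr y, rfl⟩
  · intro q b h
    obtain ⟨U, hU, hd⟩ := hdis b
    exact hd q ⟨b, ⟨b, mem_of_mem_nhds hU, h⟩, mem_of_mem_nhds hU⟩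

end

/-- pluriharmonic functions pull back -/
lemma phb_pull {n : ℕ} {X : Type} [TopologicalSpace X] [ChartedSpace (Cm n) X]
    {w : Chart n X → Cm n → Matrix (Fin n) (Fin n) ℂ} {E E' : Type} [TopologicalSpace E]
    [TopologicalSpace E'] {p : E → X} {p' : E' → X} {pr : E → E'} (hpr : Continuous pr)
    (hpp : ∀ y, p' (pr y) = p y) {u : E' → ℝ} {B : ℝ} (hu : IsPHB p' w u B) :
    IsPHB p w (fun y => u (pr y)) B := by
  intro y e hAt
  rw [← hpp y] at hAt ⊢
  obtain ⟨g, h1, h2, h3⟩ := hu (pr y) e hAt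
  refine ⟨g, ?_, h2, h3⟩
  filter_upwards [hpr.continuousAt.eventually h1] with y' h4
  rw [h4, hpp]

end Vale.Agent.P284.H446.QC
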