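import Vale.Agent.P284.H409.SpecA
import Vale.Agent.P284.H446.QC
import Vale.Agent.P284.H446.FolSub
import Vale.Agent.P284.H977.Lift
import Vale.Agent.P284.H913.V18
import Vale.Agent.P284.H5.V16
import Vale.Agent.P284.H35.S4b

/-!
# P284, theorem A, block FibConclQ: the fibre, for an amenable quotient `Q` of the group `Γ`
-/

open scoped Manifold ContDiff Topology Pointwise ComplexConjugate ComplexOrder
open Filter Set Metric MeasureTheory

noncomputable section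

namespace Vale.Agent.P284.H446.QC

open Vale.Agent.P272.K Vale.Agent.P284.H248 Vale.Agent.P284.H894 Vale.Agent.P284.H894.G
  Vale.Agent.P284.H894.V Vale.Agent.P284.H894.W Vale.Agent.P284.H409.A

/-- injectivity of the derivative is an open condition -/
lemma inj_near {n : ℕ} {X : Type} [TopologicalSpace X] [ChartedSpace (Cm n) X]
    [IsManifold 𝓘(ℂ, Cm n) ω X] {Φ : Cm n → X}
    (hΦ : ContMDiff 𝓘(ℂ, Cm n) 𝓘(ℂ, Cm n) ω Φ) {ζ : Cm n}
    (hinj : Function.Injective (mfderiv 𝓘(ℂ, Cm n) 𝓘(ℂ, Cm n) Φ ζ)) :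
    ∀ᶠ ξ in 𝓝 ζ, Function.Injective (mfderiv 𝓘(ℂ, Cm n) 𝓘(ℂ, Cm n) Φ ξ) := by
  set e := chartAt (Cm n) (Φ ζ) with he
  have hAt : At e (Φ ζ) := H5.V.at_chartAt _
  set τ : Cm n → Cm n := fun ξ => e (Φ ξ) with hτdef
  have hτ : ContDiffAt ℂ ω τ ζ := H5.V.tau_smooth hΦ hAt
  have hmd : ∀ ξ, MDifferentiableAt 𝓘(ℂ, Cm n) 𝓘(ℂ, Cm n) Φ ξ := fun ξ =>
    hΦ.contMDiffAt.mdifferentiableAt (by simp)
  have h1 : mfderiv 𝓘(ℂ, Cm n) 𝓘(ℂ, Cm n) Φ ζ = fderiv ℂ τ ζ := by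
    rw [(hmd ζ).mfderiv]
    simp only [writtenInExtChartAt, mfld_simps, fderivWithin_univ]
    rfl
  rw [h1] at hinj
  have hc : ContinuousAt (fderiv ℂ τ) ζ :=
    (hτ.fderiv_right (m := 0) (by simp)).continuousAt
  have h2 : ∀ᶠ ξ in 𝓝 ζ, Function.Injective (fderiv ℂ τ ξ) :=
    hc.eventually ((ContinuousLinearMap.isOpen_injective (𝕜 := ℂ)).mem_nhds hinj)
  have h3 : ∀ᶠ ξ in 𝓝 ζ, Φ ξ ∈ e.source :=
    hΦ.continuous.continuousAt.eventually (e.open_source.mem_nhds (mem_chart_source _ _))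
  filter_upwards [h2, h3] with ξ h4 h5
  have h6 : MDifferentiableAt 𝓘(ℂ, Cm n) 𝓘(ℂ, Cm n) e (Φ ξ) :=
    mdifferentiableAt_atlas (chart_mem_atlas _ _) h5
  have h7 : fderiv ℂ τ ξ = (mfderiv 𝓘(ℂ, Cm n) 𝓘(ℂ, Cm n) e (Φ ξ)).comp
      (mfderiv 𝓘(ℂ, Cm n) 𝓘(ℂ, Cm n) Φ ξ) := by
    rw [← mfderiv_eq_fderiv]
    exact mfderiv_comp ξ h6 (hmd ξ)
  intro a b hab
  apply h4
  rw [h7]
  show (mfderiv 𝓘(ℂ, Cm n) 𝓘(ℂ, Cm n) e (Φ ξ)) (mfderiv 𝓘(ℂ, Cm n) 𝓘(ℂ, Cm n) Φ ξ a) =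
    (mfderiv 𝓘(ℂ, Cm n) 𝓘(ℂ, Cm n) e (Φ ξ)) (mfderiv 𝓘(ℂ, Cm n) 𝓘(ℂ, Cm n) Φ ξ b)
  rw [hab]

/-- choice of the point `ζ₁` -/
lemma exists_zeta {n N : ℕ} {PP : Cm n → Cm N} (hPP : ContDiff ℂ 1 PP) {A : Set (Cm n)} {ζ : Cm n}
    (hA : ∀ᶠ ξ in 𝓝 ζ, ξ ∈ A) (hs : Function.Surjective (fderiv ℂ PP ζ)) {T : Set (Cm N)}
    (hT : IsClosed T) (hTi : interior T = ∅) {R : Cm n → Prop} (hR : ∀ᵐ ξ : Cm n, R ξ) :
    ∃ ξ, ξ ∈ A ∧ PP ξ ∉ T ∧ R ξ := by
  obtain ⟨O, hOA, hO, hζ⟩ := _root_.eventually_nhds_iff.1 hA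
  have h1 : map PP (𝓝 ζ) = 𝓝 (PP ζ) :=
    (hPP.contDiffAt.hasStrictFDerivAt one_ne_zero).map_nhds_eq_of_surj (LinearMap.range_eq_top.2 hs)
  have h2 : PP '' O ∈ 𝓝 (PP ζ) := by
    rw [← h1]
    exact image_mem_map (hO.mem_nhds hζ)
  have h3 : ∃ ξ ∈ O, PP ξ ∉ T := by
    by_contra hcon
    push Not at hcon
    have h4 : PP '' O ⊆ T := by
      rintro _ ⟨ξ, hξ, rfl⟩
      exact hcon ξ hξ
    have h5 : PP ζ ∈ interior T := mem_interior_iff_mem_nhds.2 (mem_of_superset h2 h4)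
    rw [hTi] at h5
    exact h5
  obtain ⟨ξ₀, h4, h5⟩ := h3
  have h6 : IsOpen (O ∩ PP ⁻¹' Tᶜ) := hO.inter (hT.isOpen_compl.preimage hPP.continuous)
  have h7 : volume (O ∩ PP ⁻¹' Tᶜ) ≠ 0 := (h6.measure_pos volume ⟨ξ₀, h4, h5⟩).ne'
  by_contra hcon
  push Not at hcon
  apply h7
  refine measure_mono_null (fun ξ hξ => ?_) hR
  exact hcon ξ (hOA ξ hξ.1) hξ.2

lemma fg_of_fi {G : Type*} [Group G] (H : Subgroup G) [hH : H.FiniteIndex] (h : Group.FG H) :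
    Group.FG G := by
  obtain ⟨S, hS, hSf⟩ := (Group.fg_iff (G := H)).1 h
  have : Finite (G ⧸ H) := H.finite_quotient_of_finiteIndex
  let r : G ⧸ H → G := Quotient.out
  refine (Group.fg_iff (G := G)).2 ⟨((↑) '' S) ∪ Set.range r, ?_, (hSf.image _).union (Set.finite_range r)⟩
  rw [eq_top_iff]
  intro g _
  have h1 : (r (g : G ⧸ H))⁻¹ * g ∈ H := by
    rw [← QuotientGroup.eq]
    exact Quotient.out_eq _
  have h2 : H ≤ Subgroup.closure (((↑) '' S : Set G) ∪ Set.range r) := by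
    have h3 : (Subgroup.closure S).map H.subtype = H := by
      rw [hS, ← MonoidHom.range_eq_map, H.range_subtype]
    intro x hx
    rw [← h3, MonoidHom.map_closure] at hx
    exact Subgroup.closure_mono subset_union_left hx
  have h4 : r (g : G ⧸ H) ∈ Subgroup.closure (((↑) '' S : Set G) ∪ Set.range r) :=
    Subgroup.subset_closure (Or.inr ⟨_, rfl⟩)
  have h5 := Subgroup.mul_mem _ h4 (h2 h1)
  rwa [mul_inv_cancel_left] at h5

/-- the part of the fibre argument after the choice of the fibre -/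
theorem fib_core (hP1 : Part1) (h15 : V15Stmt) (h17 : V17Stmt) (h18 : V18Stmt)
    {m : ℕ} {Y : Type} [TopologicalSpace Y] [T2Space Y] [CompactSpace Y]
    [ConnectedSpace Y] [ChartedSpace (Cm m) Y] [IsManifold 𝓘(ℂ, Cm m) ω Y]
    {w₁ : Chart m Y → Cm m → Matrix (Fin m) (Fin m) ℂ} (hw₁ : IsKahler w₁)
    {V₁ S : Type} [TopologicalSpace V₁] [ConnectedSpace V₁] [Group S] [MulAction S V₁]
    {p₁ : V₁ → Y} (hp₁ : IsGalois S p₁)
    {V : Submodule ℝ (V₁ → ℝ)} [FiniteDimensional ℝ V]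
    (hV : ∀ u, (∃ B, IsPHB p₁ w₁ u B) → u ∈ V) {Q : Type} [Group Q] (q : S →* Q)
    (hq : Function.Surjective q) (hQ : Folner Q) (hQi : Infinite Q) :
    Group.FG Q ∧ VirtIndicable Q := by
  obtain ⟨_, _, _, hfg, -⟩ := h15 m Y w₁ hw₁ V₁ S p₁ hp₁
  have hfgQ : Group.FG Q := Group.fg_of_surjective hq
  obtain ⟨E', _, _, pr, p', hp', hprc, hprs, hpp, -, -⟩ := exists_quot hp₁ q hq
  have hE' : ConnectedSpace E' := hprs.connectedSpace hprc
  obtain ⟨v, B, hv, hvn⟩ := hP1 m Y w₁ hw₁ E' Q p' hp' hQi hQ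
  have hw' : IsHermitian w₁ := hw₁.1
  let L : H5.V.phb p' w₁ →ₗ[ℝ] V :=
    { toFun := fun u => ⟨fun y => (u : E' → ℝ) (pr y), hV _ (by
        obtain ⟨B, hB⟩ := u.2
        exact ⟨B, phb_pull hprc hpp hB⟩)⟩
      map_add' := fun a b => rfl
      map_smul' := fun a b => rfl }
  have hL : Function.Injective L := by
    intro a b hab
    refine Subtype.ext (funext fun y' => ?_)
    obtain ⟨y, rfl⟩ := hprs y'
    exact congrFun (congrArg Subtype.val hab) y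
  have hfd : FiniteDimensional ℝ (H5.V.phb p' w₁) := FiniteDimensional.of_injective L hL
  obtain ⟨ρ, -, hρ⟩ := h17 m Y w₁ hw' E' Q p' hp' (H5.V.phb p' w₁) (fun u => Iff.rfl) v ⟨B, hv⟩ hvn
  exact ⟨hfgQ, h18 Q hfgQ hQ (H5.V.phb p' w₁) ρ hρ⟩

/-- **AQ** -/
theorem fibStmtQ : FibStmtQ := by
  intro hR h4 hGeo hFD hP1 h15 h17 h18 n X _ _ _ _ _ _ w hw Φ hΦ E Γ _ _ _ _ p hp Q _ q hq hQ G K N F c
    hAl hinf
  obtain ⟨Φl, hΦl, hpΦ⟩ := H977.liftStmt n X E p hp.cov hp.surj Φ hΦ.holo.continuous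
  obtain ⟨P, hP, ζ, -, hζi, hζs⟩ := hR n X w hw Φ hΦ E Γ p hp G K N F c hAl Φl hΦl hpΦ
  obtain ⟨T, hT, hTi, hTx⟩ := h4 n X w hw Φ hΦ.holo E Γ p hp G K N F c hAl Φl hΦl hpΦ P hP ⟨ζ, hζs⟩
  have hFDr := hFD n X w hw Φ hΦ E p hp.cov N F hAl.hol Φl hΦl hpΦ P hP ⟨ζ, hζs⟩
  have hPP : ContDiff ℂ 1 (fun ζ => F (Φl ζ)) := by
    rw [contDiff_pi]
    intro i
    have : (fun ζ => F (Φl ζ) i) = fun ζ => MvPolynomial.eval ζ (P i) := funext fun ζ => hP ζ i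
    rw [this, contDiff_iff_contDiffAt]
    intro z
    exact (AnalyticOnNhd.eval_mvPolynomial (𝕜 := ℂ) (P i) z (mem_univ z)).contDiffAt
  obtain ⟨ζ₁, h1, h2, h3⟩ := exists_zeta hPP (inj_near hΦ.holo hζi) hζs hT hTi hFDr
  obtain ⟨hreg, S, hSK, hSf, hSs, hSo, hSQ⟩ := hTx (Φl ζ₁) h2
  have hFDx := h3 h1 hreg
  set x := Φl ζ₁ with hx
  set V₁ := connectedComponentIn (F ⁻¹' {F x}) x with hV₁
  obtain ⟨V, hVf, hV⟩ := hFDx
  have hVF : ∀ y ∈ V₁, F y = F x := fun y hy => connectedComponentIn_subset (F ⁻¹' {F x}) x hy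
  obtain ⟨B, hB⟩ := hAl.hol
  have hFc : Continuous F := H35.S4.holB_continuous hp.cov hB
  have hxm : x ∈ F ⁻¹' {F x} := rfl
  have hconn : IsConnected V₁ := isConnected_connectedComponentIn_iff.2 hxm
  have hSF : ∀ s ∈ S, ∀ y, F (s • y) = F y := fun s hs y => by
    obtain ⟨a, b⟩ := (hAl.mem s).1 (hSK hs)
    rw [hAl.equiv s a, b, add_zero]
  have hclosed : IsClosed V₁ := by
    have h5 : IsClosed (F ⁻¹' {F x}) := isClosed_singleton.preimage hFc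
    have h6 : closure V₁ ⊆ F ⁻¹' {F x} := h5.closure_subset_iff.2 (connectedComponentIn_subset _ _)
    have h7 : closure V₁ ⊆ V₁ := hconn.isPreconnected.closure.subset_connectedComponentIn
      (subset_closure (mem_connectedComponentIn hxm)) h6
    exact isClosed_of_closure_subset h7
  obtain ⟨m, Y, i1, i2, i3, i4, i5, i6, w₁, i7, p₁, -, hw₁, hsm, hp₁, hal⟩ :=
    hGeo n X w hw E Γ p hp N F ⟨B, hB⟩ S (F x) V₁ hSF hSs hconn
      hVF hSo hclosed (fun y hy => hreg y (hVF y hy)) hSQ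
  have hcs : ConnectedSpace V₁ := isConnected_iff_connectedSpace.1 hconn
  -- the image of `S`
  have hle : S.map q ≤ K.map q := Subgroup.map_mono hSK
  have hfi : ((S.map q).subgroupOf (K.map q)).FiniteIndex := by
    have h5 : S.subgroupOf K ≤ ((S.map q).subgroupOf (K.map q)).comap (q.subgroupMap K) := by
      intro k hk
      rw [Subgroup.mem_comap, Subgroup.mem_subgroupOf]
      exact ⟨k, hk, rfl⟩
    have h6 := Subgroup.finiteIndex_of_le h5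
    have h7 := h6.index_ne_zero
    rw [Subgroup.index_comap_of_surjective _ (q.subgroupMap_surjective K)] at h7
    exact ⟨h7⟩
  let ε : (S.map q).subgroupOf (K.map q) ≃* S.map q := Subgroup.subgroupOfEquivOfLe hle
  have hSinf : Infinite (S.map q) := by
    by_contra hcon
    rw [not_infinite_iff_finite] at hcon
    have h5 : Finite ((S.map q).subgroupOf (K.map q)) := Finite.of_equiv _ ε.symm.toEquiv
    have h6 : Finite (K.map q ⧸ (S.map q).subgroupOf (K.map q)) :=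
      ((S.map q).subgroupOf (K.map q)).finite_quotient_of_finiteIndex
    have h7 : Finite (K.map q) :=
      Finite.of_equiv _ (Subgroup.groupEquivQuotientProdSubgroup
        (s := (S.map q).subgroupOf (K.map q))).symm
    exact not_finite (K.map q)
  obtain ⟨h8, h9⟩ := fib_core hP1 h15 h17 h18 hw₁ hp₁ (V := V)
    (fun u ⟨B, hu⟩ => hV u ⟨B, hal u B hu⟩)
    (q.subgroupMap S) (q.subgroupMap_surjective S) (folner_subgroup hQ (S.map q)) hSinf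
  exact ⟨fg_of_fi ((S.map q).subgroupOf (K.map q))
      (Group.fg_of_surjective (f := ε.symm.toMonoidHom) ε.symm.surjective),
    H913.V.VirtIndicable.of_subgroup ((S.map q).subgroupOf (K.map q))
      (H913.V.VirtIndicable.of_surjective ε.toMonoidHom ε.surjective h9)⟩

/-- **WFIB2** is the case `q = id`. -/
theorem fibStmt2 : FibStmt2 := by
  intro hR h4 hGeo hFD hP1 h15 h17 h18 n X _ _ _ _ _ _ w hw Φ hΦ E Γ _ _ _ _ p hp hgr G K N F c
    hAl hinf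
  have h := fibStmtQ hR h4 hGeo hFD hP1 h15 h17 h18 n X w hw Φ hΦ E Γ p hp Γ (MonoidHom.id Γ)
    Function.surjective_id hgr.folner G K N F c hAl
  rw [Subgroup.map_id] at h
  exact h hinf

end Vale.Agent.P284.H446.QC
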