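import Vale.Agent.P284.H409.K.Spec

/-!
# P284, theorem K (helper446): row KG6 (assembly)
-/

open scoped Manifold ContDiff Topology Pointwise
open Filter Set Metric

noncomputable section

namespace Vale.Agent.P284.H446.K

open Vale.Agent.P272.K Vale.Agent.P284.H248 Vale.Agent.P284.H894 Vale.Agent.P284.H894.G
  Vale.Agent.P284.H409.K

theorem image_conj_pow {A : Type*} [Group A] (e : A ≃* A) (S : Set A) (k : ℕ) :
    (e '' S) ^ k = e '' (S ^ k) := by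
  induction k with
  | zero => simp [Set.singleton_one]
  | succ k ih => rw [pow_succ, pow_succ, ih, ← Set.image_mul]

theorem subexp_of_image {A : Type*} [Group A] (e : A ≃* A) {S : Set A} (h : Subexp (e '' S)) :
    Subexp S := by
  intro ε hε
  obtain ⟨C, hC⟩ := h ε hε
  refine ⟨C, fun k => ?_⟩
  have h1 := hC k
  rwa [image_conj_pow, Set.ncard_image_of_injective _ e.injective] at h1

section
variable {n : ℕ} {X : Type} [TopologicalSpace X] [ChartedSpace (Cm n) X]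
  {E Γ : Type} [TopologicalSpace E] [Group Γ] [MulAction Γ E] {p : E → X}

theorem isDisc_smul (hG : IsGalois Γ p) (γ : Γ) {φ : ℂ → E} (h : IsDisc (n := n) p φ) :
    IsDisc (n := n) p (fun t => γ • φ t) := by
  have hp : ∀ y : E, p (γ • y) = p y := fun y => ((hG.orb y (γ • y)).2 ⟨γ, rfl⟩).symm
  refine ⟨(hG.cont γ).comp_continuousOn h.cont, ?_⟩
  intro t ht e he
  simp only [hp] at he ⊢
  exact h.holo t ht e he

theorem isPsh_smul (hG : IsGalois Γ p) (γ : Γ) {u : E → ℝ} (h : IsPsh (n := n) p u) :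
    IsPsh (n := n) p (fun y => u (γ • y)) := by
  refine ⟨?_, ?_⟩
  · intro y c hc
    exact (hG.cont γ).continuousAt.eventually (h.usc (γ • y) c hc)
  · intro φ hφ
    exact h.mean _ (isDisc_smul hG γ hφ)

end

/-- **KG6** -/
theorem kg6Stmt : KG6Stmt := by
  classical
  intro hK1 hK6 hK7 hK8 n X _ _ _ _ _ _ w hw E Γ _ _ _ _ _ p hG S hS hexp y W hW
  obtain ⟨C, P, K, Sh, hMA⟩ := hK1 n X w hw E Γ p hG
  obtain ⟨γ₀, a, z₀, hz₀, hy⟩ := Sh.cover y
  -- a small radius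
  have hzΩ : z₀ ∈ C.Ω a := by
    refine ball_subset_ball ?_ hz₀
    have := C.r_pos a
    linarith
  have hcont : ContinuousAt (fun z => γ₀ • Sh.σ a z) z₀ :=
    (hG.cont γ₀).continuousAt.comp ((Sh.cont a).continuousAt (isOpen_ball.mem_nhds hzΩ))
  have hev : ∀ᶠ z in 𝓝 z₀, γ₀ • Sh.σ a z ∈ W := by
    refine hcont.eventually ?_
    show ∀ᶠ y' in 𝓝 (γ₀ • Sh.σ a z₀), y' ∈ W
    rw [hy]
    exact hW
  have hevV : ∀ᶠ z in 𝓝 z₀, z ∈ C.V a := by
    refine isOpen_ball.mem_nhds ?_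
    refine ball_subset_ball ?_ hz₀
    have := C.r_pos a
    linarith
  obtain ⟨ε, hε, hball⟩ := Metric.eventually_nhds_iff_ball.1 (hev.and hevV)
  set ρ : ℝ := ε / 4 with hρ
  have hρ0 : 0 < ρ := by positivity
  have hsub4 : ball z₀ (4 * ρ) ⊆ C.V a := by
    intro z hz
    have h4 : 4 * ρ = ε := by rw [hρ]; ring
    rw [h4] at hz
    exact (hball z hz).2
  have hsub1 : closedBall z₀ ρ ⊆ ball z₀ ε := closedBall_subset_ball (by rw [hρ]; linarith)
  have hsub2 : closedBall z₀ ρ ⊆ C.V a := fun z hz => (hball z (hsub1 hz)).2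
  -- the conjugate set
  set e : Γ ≃* Γ := MulAut.conj γ₀⁻¹ with he
  have hexp' : ¬ Subexp (e '' S) := fun h => hexp (subexp_of_image e h)
  obtain ⟨t, ⟨s, hs, hst⟩, α, β, hα, hαβ, f, δ, hδ, hf, hf1, hf2⟩ :=
    hK6 n Γ C P K hMA (e '' S) (hS.image _) hexp' a z₀ ρ hρ0 hsub4
  obtain ⟨v, hv1, hv2⟩ := hK7 n Γ C K f δ hδ hf
  obtain ⟨u, hu, hub, huv⟩ := hK8 n X E Γ p hG C Sh v
  have h1 : v.v 1 a z₀ ≤ α :=
    hv1 1 a (ball z₀ ρ) α isOpen_ball (ball_subset_closedBall.trans hsub2) hf1 z₀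
      (mem_ball_self hρ0)
  obtain ⟨z, hz, h2⟩ := hv2 t a (closedBall z₀ ρ) β (isCompact_closedBall _ _) hsub2
    (fun j => by
      obtain ⟨z, hz, h⟩ := hf2 j
      exact ⟨z, ball_subset_closedBall hz, h⟩)
  refine ⟨s, hs, fun y' => u (γ₀⁻¹ • y'), isPsh_smul hG γ₀⁻¹ hu, fun y' => hub _,
    γ₀ • Sh.σ a z, (hball z (hsub1 hz)).1, ?_⟩
  have h3 : u (γ₀⁻¹ • y) = v.v 1 a z₀ := by
    rw [← hy, inv_smul_smul, ← huv 1 a z₀ (hsub2 (mem_closedBall_self hρ0.le)), one_smul]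
  have h4 : γ₀⁻¹ • s • γ₀ • Sh.σ a z = t • Sh.σ a z := by
    rw [← hst, he, MulAut.conj_apply, inv_inv, mul_smul, mul_smul]
  have h5 : u (γ₀⁻¹ • s • γ₀ • Sh.σ a z) = v.v t a z := by
    rw [h4]
    exact huv t a z (hsub2 hz)
  show u (γ₀⁻¹ • y) < u (γ₀⁻¹ • s • γ₀ • Sh.σ a z)
  rw [h3, h5]
  linarith

end Vale.Agent.P284.H446.K
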