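import Vale.Agent.P284.H894.S.Spec
import Vale.Agent.P284.H446.FibQ
import Vale.Agent.P284.H894.A.Final

/-!
# P284, theorem S, row SK (helper446): the kernel of the Albanese periods is finitely generated and all
its amenable quotients are finite.
-/

open scoped Manifold ContDiff Topology Pointwise ComplexConjugate ComplexOrder
open Filter Set Metric MeasureTheory

noncomputable section

namespace Vale.Agent.P284.H446.Ker

open Vale.Agent.P272.K Vale.Agent.P284.H248 Vale.Agent.P284.H894 Vale.Agent.P284.H894.G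
  Vale.Agent.P284.H894.V Vale.Agent.P284.H894.W Vale.Agent.P284.H409.A Vale.Agent.P284.H446.QC

/-- a subgroup `S` of finite index in `K` is finitely generated, and all its infinite amenable quotients
are virtually indicable -/
theorem fib_both (hR : RankStmt2) (h4 : S4Stmt2) (hGeo : GeoStmt) (hFD : FDStmt2) (hP1 : Part1)
    (h15 : V15Stmt) (h17 : V17Stmt) (h18 : V18Stmt)
    {n : ℕ} {X : Type} [TopologicalSpace X] [T2Space X] [CompactSpace X] [ConnectedSpace X]
    [ChartedSpace (Cm n) X] [IsManifold 𝓘(ℂ, Cm n) ω X]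
    {w : Chart n X → Cm n → Matrix (Fin n) (Fin n) ℂ} (hw : IsKahler w)
    {Φ : Cm n → X} (hΦ : FiniteOrder w Φ)
    {E Γ : Type} [TopologicalSpace E] [SimplyConnectedSpace E] [Group Γ] [MulAction Γ E]
    {p : E → X} (hp : IsGalois Γ p) {G K : Subgroup Γ} {N : ℕ} {F : E → Cm N} {c : Γ → Cm N}
    (hAl : Alb p w G K F c) :
    ∃ S : Subgroup Γ, S ≤ K ∧ (S.subgroupOf K).FiniteIndex ∧ Group.FG S ∧
      ∀ (Q : Type) [Group Q] (q : S →* Q), Function.Surjective q → Folner Q → Infinite Q →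
        VirtIndicable Q := by
  obtain ⟨Φl, hΦl, hpΦ⟩ := H977.liftStmt n X E p hp.cov hp.surj Φ hΦ.holo.continuous
  obtain ⟨P, hP, ζ, -, hζi, hζs⟩ := hR n X w hw Φ hΦ E Γ p hp G K N F c hAl Φl hΦl hpΦ
  obtain ⟨T, hT, hTi, hTx⟩ := h4 n X w hw Φ hΦ.holo E Γ p hp G K N F c hAl Φl hΦl hpΦ P hP ⟨ζ, hζs⟩
  have hFDr := hFD n X w hw Φ hΦ E p hp.cov N F hAl.hol Φl hΦl hpΦ P hP ⟨ζ, hζs⟩
  have hPP : ContDiff ℂ 1 (fun ζ => F (Φl ζ)) := by
    rw [contDiff_pi]
    intro i
    have : (fun ζ => F (Φl ζ) i) = fun ζ => MvPolynomial.eval ζ (P i) := funext fun ζ => hP ζ i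
    rw [this, contDiff_iff_contDiffAt]
    intro z
    exact (AnalyticOnNhd.eval_mvPolynomial (𝕜 := ℂ) (P i) z (mem_univ z)).contDiffAt
  obtain ⟨ζ₁, h1, h2, h3⟩ := exists_zeta hPP (inj_near hΦ.holo hζi) hζs hT hTi hFDr
  obtain ⟨hreg, S, hSK, hSf, hSs, hSo, hSQ⟩ := hTx (Φl ζ₁) h2
  have hFDx := h3 h1 hreg
  set x := Φl ζ₁ with hx
  set V₁ := connectedComponentIn (F ⁻¹' {F x}) x with hV₁
  obtain ⟨V, hVf, hV⟩ := hFDx
  have hVF : ∀ y ∈ V₁, F y = F x := fun y hy => connectedComponentIn_subset (F ⁻¹' {F x}) x hy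
  obtain ⟨B, hB⟩ := hAl.hol
  have hFc : Continuous F := H35.S4.holB_continuous hp.cov hB
  have hxm : x ∈ F ⁻¹' {F x} := rfl
  have hconn : IsConnected V₁ := isConnected_connectedComponentIn_iff.2 hxm
  have hSF : ∀ s ∈ S, ∀ y, F (s • y) = F y := fun s hs y => by
    obtain ⟨a, b⟩ := (hAl.mem s).1 (hSK hs)
    rw [hAl.equiv s a, b, add_zero]
  have hclosed : IsClosed V₁ := by
    have h5 : IsClosed (F ⁻¹' {F x}) := isClosed_singleton.preimage hFc
    have h6 : closure V₁ ⊆ F ⁻¹' {F x} := h5.closure_subset_iff.2 (connectedComponentIn_subset _ _)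
    have h7 : closure V₁ ⊆ V₁ := hconn.isPreconnected.closure.subset_connectedComponentIn
      (subset_closure (mem_connectedComponentIn hxm)) h6
    exact isClosed_of_closure_subset h7
  obtain ⟨m, Y, i1, i2, i3, i4, i5, i6, w₁, i7, p₁, -, hw₁, hsm, hp₁, hal⟩ :=
    hGeo n X w hw E Γ p hp N F ⟨B, hB⟩ S (F x) V₁ hSF hSs hconn
      hVF hSo hclosed (fun y hy => hreg y (hVF y hy)) hSQ
  have hcs : ConnectedSpace V₁ := isConnected_iff_connectedSpace.1 hconn
  obtain ⟨_, _, _, hfg, -⟩ := h15 m Y w₁ hw₁ V₁ S p₁ hp₁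
  refine ⟨S, hSK, hSf, hfg, fun Q _ q hq hQ hQi => ?_⟩
  exact (fib_core hP1 h15 h17 h18 hw₁ hp₁ (V := V)
    (fun u ⟨B, hu⟩ => hV u ⟨B, hal u B hu⟩) q hq hQ hQi).2

/-- **SK** -/
theorem kerStmt_of (hR : RankStmt2) (h4 : S4Stmt2) (hGeo : GeoStmt) (hFD : FDStmt2) (hP1 : Part1)
    (h15 : V15Stmt) (h17 : V17Stmt) (h18 : V18Stmt) (hG : GrpAStmt) (hU : UniConcl)
    (hS : StkStmt) (hL : LiftStmt) : H894.S.KerStmt := by
  intro n X _ _ _ _ _ _ w hw Φ hΦ E Γ _ _ _ _ p hp G K N F c hAl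
  obtain ⟨S, hSK, hSf, hSfg, hSq⟩ := fib_both hR h4 hGeo hFD hP1 h15 h17 h18 hw hΦ hp hAl
  let ε : S.subgroupOf K ≃* S := Subgroup.subgroupOfEquivOfLe hSK
  have hfgS : Group.FG (S.subgroupOf K) :=
    Group.fg_of_surjective (f := ε.symm.toMonoidHom) ε.symm.surjective
  have hKfg : Group.FG K := fg_of_fi (S.subgroupOf K) hfgS
  refine ⟨hKfg, fun Q _ q hq hQ => ?_⟩
  by_contra hcon
  rw [not_finite_iff_infinite] at hcon
  -- the image of `S`
  set S' := S.subgroupOf K with hS'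
  set Q' := S'.map q with hQ'
  have hfi : Q'.FiniteIndex := by
    have h5 : S' ≤ Q'.comap q := Subgroup.le_comap_map q S'
    have h6 := Subgroup.finiteIndex_of_le h5
    have h7 := h6.index_ne_zero
    rw [Subgroup.index_comap_of_surjective _ hq] at h7
    exact ⟨h7⟩
  have hQinf : Infinite Q' := by
    by_contra h5
    rw [not_infinite_iff_finite] at h5
    have h6 : Finite (Q ⧸ Q') := Q'.finite_quotient_of_finiteIndex
    have h7 : Finite Q := Finite.of_equiv _ (Subgroup.groupEquivQuotientProdSubgroup (s := Q')).symm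
    exact not_finite Q
  have h8 : VirtIndicable Q' :=
    hSq Q' ((q.subgroupMap S').comp ε.symm.toMonoidHom)
      ((q.subgroupMap_surjective S').comp ε.symm.surjective) (folner_subgroup hQ Q') hQinf
  have h9 : VirtIndicable Q := H913.V.VirtIndicable.of_subgroup Q' h8
  have h10 : VirtIndicable K := H913.V.VirtIndicable.of_surjective q hq h9
  obtain ⟨_, _, _, hfg, -⟩ := h15 n X w hw E Γ p hp
  have hadd := alb_add hAl
  refine end_of h15 hR hS hL hw hΦ hp hAl
    (hG Γ Γ (MonoidHom.id Γ) Function.surjective_id hfg G K hAl.fi N c hadd hAl.mem hAl.disc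
      hAl.span ?_ ?_ (hU n X w hw Φ hΦ E Γ p hp G K N F c hAl))
  · rw [Subgroup.map_id]; exact hKfg
  · rw [Subgroup.map_id]; exact h10

end Vale.Agent.P284.H446.Ker

namespace Vale.Agent.P284.H446.Ker

open Vale.Agent.P284.H894.V Vale.Agent.P284.H894.W

/-- **SK**, with all inputs -/
theorem kerStmt : H894.S.KerStmt :=
  kerStmt_of H119.R.rankStmt2 H10.s4Stmt2 H730.G.geoStmt H639.FD.fdStmt2 H894.V.part1 H639.V.v15Stmt
    H465.V17.v17Stmt H731.V.v18Stmt H409.A.grpAStmt H894.A.uniConcl H894.W.stkStmt H977.liftStmt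

end Vale.Agent.P284.H446.Ker
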