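import Vale.Agent.P284.H894.V.Spec

/-!
# P284, theorem V, block V7 (helper446): statement of the local part
-/

open scoped Manifold ContDiff Topology Pointwise ComplexConjugate ComplexOrder
open Filter Set Metric MeasureTheory

noncomputable section

namespace Vale.Agent.P284.H446.V

open Vale.Agent.P272.K Vale.Agent.P284.H248 Vale.Agent.P284.H894 Vale.Agent.P284.H894.V

/-- **V7L**: the energy inequality V6 for the local `L²` limit of a Cauchy sequence of smooth functions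
which satisfies the weak equation in the limit. -/
def V7LStmt : Prop :=
  V6Stmt → ∀ (n : ℕ) (c : Cm n) (R R' : ℝ), 0 < R → R < R' →
    ∀ w : Cm n → Matrix (Fin n) (Fin n) ℂ, KU (ball c R') w →
    ∀ (h : ℕ → Cm n → ℝ) (l : ℝ), 0 < l → (∀ j, ∀ z ∈ ball c R', ContDiffAt ℝ ∞ (h j) z) →
    (∀ ε : ℝ, 0 < ε → ∃ J, ∀ j ≥ J, ∀ k ≥ J,
      ∫ z in ball c R, (h j z - h k z) ^ 2 * vol w z < ε) →
    (∀ F, TU (ball c R) F →
      Tendsto (fun j => ∫ z in ball c R, h j z * (l * F z - lap w F z) * vol w z) atTop (𝓝 0)) →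
    ∀ ζ, TU (ball c R) ζ → ∀ ε : ℝ, 0 < ε → ∀ᶠ j in atTop,
      l * ∫ z in ball c R, ζ z ^ 2 * h j z ^ 2 * vol w z ≤
        (∫ z in ball c R, gr w ζ ζ z * h j z ^ 2 * vol w z) + ε

end Vale.Agent.P284.H446.V
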