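import Vale.Agent.P284.H894.V.Spec
import Mathlib.Algebra.QuadraticDiscriminant

/-!
# P284, theorem V, block V7 (helper446): the minimising sequence
-/

open Filter Set Topology

namespace Vale.Agent.P284.H446.V

section
variable {V : Type*} [AddCommGroup V] [Module ℝ V] (ip : V →ₗ[ℝ] V →ₗ[ℝ] ℝ)

/-- Minimising sequence for the distance of `f` to the range of `T` in a pre-Hilbert space. -/
theorem min_seq (hs : ∀ f h, ip f h = ip h f) (h0 : ∀ f, 0 ≤ ip f f) (T : V →ₗ[ℝ] V) (f : V) :
    ∃ v : ℕ → V,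
      (∀ j k : ℕ, ip (f - T (v j) - (f - T (v k))) (f - T (v j) - (f - T (v k))) ≤
        2 / ((j : ℝ) + 1) + 2 / ((k : ℝ) + 1)) ∧
      ∀ u, Tendsto (fun j => ip (f - T (v j)) (T u)) atTop (𝓝 0) := by
  set S : Set ℝ := range fun v => ip (f - T v) (f - T v) with hS
  have hbdd : BddBelow S := ⟨0, by rintro _ ⟨v, rfl⟩; exact h0 _⟩
  have hne : S.Nonempty := range_nonempty _
  set m : ℝ := sInf S with hm
  have hmin : ∀ v, m ≤ ip (f - T v) (f - T v) := fun v => csInf_le hbdd ⟨v, rfl⟩
  have hex : ∀ j : ℕ, ∃ v, ip (f - T v) (f - T v) < m + 1 / ((j : ℝ) + 1) := by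
    intro j
    obtain ⟨_, ⟨v, rfl⟩, hv⟩ := exists_lt_of_csInf_lt hne
      (show sInf S < m + 1 / ((j : ℝ) + 1) by
        have : (0 : ℝ) < 1 / ((j : ℝ) + 1) := by positivity
        linarith)
    exact ⟨v, hv⟩
  choose v hv using hex
  refine ⟨v, fun j k => ?_, fun u => ?_⟩
  · have h1 := hmin ((1 / 2 : ℝ) • (v j + v k))
    have h2 : f - T ((1 / 2 : ℝ) • (v j + v k)) =
        (1 / 2 : ℝ) • ((f - T (v j)) + (f - T (v k))) := by
      rw [map_smul, map_add]
      module
    rw [h2] at h1
    have hj := hv j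
    have hk := hv k
    set a := f - T (v j)
    set b := f - T (v k)
    simp only [map_smul, map_add, LinearMap.smul_apply, LinearMap.add_apply, smul_eq_mul] at h1
    have h3 : ip (a - b) (a - b) = ip a a - 2 * ip a b + ip b b := by
      simp only [map_sub, LinearMap.sub_apply]
      rw [hs b a]
      ring
    rw [hs b a] at h1
    rw [h3]
    have e1 : (2 : ℝ) / ((j : ℝ) + 1) = 2 * (1 / ((j : ℝ) + 1)) := by ring
    have e2 : (2 : ℝ) / ((k : ℝ) + 1) = 2 * (1 / ((k : ℝ) + 1)) := by ring
    rw [e1, e2]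
    nlinarith
  · set D := ip (T u) (T u) with hD
    have hD0 : 0 ≤ D := h0 _
    have key : ∀ j : ℕ, (ip (f - T (v j)) (T u)) ^ 2 ≤ D * (1 / ((j : ℝ) + 1)) := by
      intro j
      have h1 : ∀ t : ℝ, 0 ≤ D * (t * t) + (-(2 * ip (f - T (v j)) (T u))) * t +
          1 / ((j : ℝ) + 1) := by
        intro t
        have h2 := hmin (v j + t • u)
        have h3 : f - T (v j + t • u) = (f - T (v j)) - t • T u := by
          rw [map_add, map_smul]; module
        rw [h3] at h2
        have hj := hv j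
        have hc := hs (T u) (f - T (v j))
        set a := f - T (v j)
        simp only [map_sub, map_smul, LinearMap.sub_apply, LinearMap.smul_apply, smul_eq_mul] at h2
        rw [hc, ← hD] at h2
        linarith
      have h4 := discrim_le_zero h1
      unfold discrim at h4
      nlinarith
    have hlim : Tendsto (fun j : ℕ => Real.sqrt (D * (1 / ((j : ℝ) + 1)))) atTop (𝓝 0) := by
      have h5 : Tendsto (fun j : ℕ => D * (1 / ((j : ℝ) + 1))) atTop (𝓝 (D * 0)) :=
        tendsto_const_nhds.mul tendsto_one_div_add_atTop_nhds_zero_nat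
      rw [mul_zero] at h5
      have h6 := (Real.continuous_sqrt.tendsto 0).comp h5
      rw [Real.sqrt_zero] at h6
      exact h6
    refine squeeze_zero_norm (fun j => ?_) hlim
    rw [Real.norm_eq_abs]
    exact Real.abs_le_sqrt (key j)

end

end Vale.Agent.P284.H446.V
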