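import Vale.Agent.P284.H446.Sheets
import Vale.Agent.P284.H446.CocSub
import Vale.Agent.P284.H465.V19
import Vale.Agent.P284.H894.V.V12
import Mathlib.Topology.ContinuousMap.Bounded.Normed
import Mathlib.Analysis.Normed.Module.FiniteDimension
import Mathlib.GroupTheory.SpecificGroups.Cyclic

/-!
# P284 (helper446): every homomorphism of a finite-index subgroup to `ℤ` is the period of a
pluriharmonic function with bounded gradient
-/

open scoped Manifold ContDiff Topology Pointwise ComplexConjugate ComplexOrder BoundedContinuousFunction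
open Filter Set Metric MeasureTheory

noncomputable section

namespace Vale.Agent.P284.H446.V

open Vale.Agent.P272.K Vale.Agent.P284.H248 Vale.Agent.P284.H894 Vale.Agent.P284.H678
  Vale.Agent.P284.H894.G Vale.Agent.P284.H894.V Vale.Agent.P284.H639 Vale.Agent.P284.H639.V
  Vale.Agent.P284.H465.V17

attribute [local instance] Subgroup.fintypeQuotientOfFiniteIndex

section
variable {n : ℕ} {X : Type} [TopologicalSpace X] [ChartedSpace (Cm n) X]
  {E Γ : Type} [TopologicalSpace E] [Group Γ] [MulAction Γ E] {p : E → X}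
  {w : Chart n X → Cm n → Matrix (Fin n) (Fin n) ℂ} {C : Coc n Γ}

/-- a compact set whose translates cover -/
theorem Sheets.exists_compact (S : Sheets p w C) : ∃ D : Set E, IsCompact D ∧
    ∀ y : E, ∃ γ : Γ, ∃ x ∈ D, γ • x = y := by
  refine ⟨⋃ a, S.σ a '' closedBall (C.c a) (2 * C.r a), ?_, fun y => ?_⟩
  · refine isCompact_iUnion fun a => (isCompact_closedBall _ _).image_of_continuousOn ?_
    exact (S.cont a).mono (closedBall_subset_ball (by linarith [C.r_pos a]))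
  · obtain ⟨γ, a, z, hz, h⟩ := S.cover y
    exact ⟨γ, S.σ a z, mem_iUnion.2 ⟨a, z, ball_subset_closedBall hz, rfl⟩, h⟩

/-- bounded functions in a finite-dimensional space of pluriharmonic functions are constant -/
theorem bdd_const [ConnectedSpace E] (hG : IsGalois Γ p) {D : Set E} (hD : IsCompact D)
    (hcov : ∀ y : E, ∃ γ : Γ, ∃ x ∈ D, γ • x = y)
    (V : Submodule ℝ (E → ℝ)) [FiniteDimensional ℝ V] (hV : ∀ u, u ∈ V ↔ ∃ B, IsPHB p w u B)
    {v : E → ℝ} (hv : v ∈ V) {M : ℝ} (hM : ∀ y, |v y| ≤ M) (y y' : E) : v y = v y' := by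
  have hcont : ∀ u ∈ V, Continuous u := fun u hu => by
    obtain ⟨B, hB⟩ := (hV u).1 hu
    exact phb_continuous hG.cov hB
  let U : Submodule ℝ (E →ᵇ ℝ) :=
    { carrier := {f | (f : E → ℝ) ∈ V}
      add_mem' := fun {f g} hf hg => V.add_mem hf hg
      zero_mem' := V.zero_mem
      smul_mem' := fun c f hf => V.smul_mem c hf }
  let J : U →ₗ[ℝ] V :=
    { toFun := fun f => ⟨(f : E →ᵇ ℝ), f.2⟩
      map_add' := fun f g => rfl
      map_smul' := fun c f => rfl }
  have hJ : Function.Injective J := by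
    intro f g h
    apply Subtype.ext
    ext y
    exact congrFun (congrArg Subtype.val h) y
  have : FiniteDimensional ℝ U := FiniteDimensional.of_injective J hJ
  have : ProperSpace U := FiniteDimensional.proper ℝ U
  -- translations
  let act : Γ → U → U := fun γ f =>
    ⟨(f : E →ᵇ ℝ).compContinuous ⟨fun y => γ • y, hG.cont γ⟩, by
      obtain ⟨B, hB⟩ := (hV _).1 f.2
      exact (hV _).2 ⟨B, phb_smul hG hB γ⟩⟩
  have hact : ∀ γ (f : U) y, (act γ f : E →ᵇ ℝ) y = (f : E →ᵇ ℝ) (γ • y) := fun _ _ _ => rfl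
  have hdist : ∀ γ (f g : U), dist (act γ f) (act γ g) ≤ dist f g := by
    intro γ f g
    rw [Subtype.dist_eq, Subtype.dist_eq]
    refine (BoundedContinuousFunction.dist_le dist_nonneg).2 fun y => ?_
    exact BoundedContinuousFunction.dist_coe_le_dist (f := (f : E →ᵇ ℝ)) (g := (g : E →ᵇ ℝ)) (γ • y)
  have hactc : ∀ γ, Continuous (act γ) := fun γ =>
    (LipschitzWith.of_dist_le_mul (K := 1) fun f g => by
      rw [NNReal.coe_one, one_mul]; exact hdist γ f g).continuous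
  let vb : U := ⟨BoundedContinuousFunction.ofNormedAddCommGroup v (hcont v hv) M
    (fun y => by rw [Real.norm_eq_abs]; exact hM y), hv⟩
  have hvb : ∀ y, (vb : E →ᵇ ℝ) y = v y := fun _ => rfl
  set O : Set U := range fun γ : Γ => act γ vb with hO
  have hOb : O ⊆ closedBall 0 ‖vb‖ := by
    rintro _ ⟨γ, rfl⟩
    have h0 : ‖(act γ vb : E →ᵇ ℝ)‖ ≤ ‖(vb : E →ᵇ ℝ)‖ :=
      (BoundedContinuousFunction.norm_le (norm_nonneg _)).2 fun y =>
        (vb : E →ᵇ ℝ).norm_coe_le_norm (γ • y)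
    have h1 : dist (act γ vb) 0 ≤ ‖vb‖ := by
      have h2 : dist (act γ vb) 0 = ‖act γ vb‖ := dist_zero_right (act γ vb)
      rw [h2]
      exact h0
    exact h1
  have hKc : IsCompact (closure O) :=
    (isCompact_closedBall (0 : U) ‖vb‖).of_isClosed_subset isClosed_closure
      (closure_minimal hOb isClosed_closedBall)
  have hinv : ∀ γ, ∀ f ∈ closure O, act γ f ∈ closure O := by
    intro γ f hf
    have h1 : MapsTo (act γ) O O := by
      rintro _ ⟨γ', rfl⟩
      refine ⟨γ' * γ, ?_⟩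
      apply Subtype.ext
      ext y
      show v ((γ' * γ) • y) = v (γ' • γ • y)
      rw [mul_smul]
    exact h1.closure (hactc γ) hf
  have hcomp : IsCompact (closure O ×ˢ D) := hKc.prod hD
  have hev : Continuous fun q : U × E => ((q.1 : E →ᵇ ℝ)) q.2 := by
    have h1 : Continuous fun q : U × E => ((q.1 : E →ᵇ ℝ), q.2) :=
      (continuous_subtype_val.comp continuous_fst).prodMk continuous_snd
    exact (continuous_eval (F := E →ᵇ ℝ)).comp h1
  obtain ⟨γ₁, x₁, hx₁, -⟩ := hcov y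
  obtain ⟨⟨f₀, x₀⟩, hmem, hmax⟩ := hcomp.exists_isMaxOn
    ⟨(act 1 vb, x₁), subset_closure ⟨1, rfl⟩, hx₁⟩ hev.continuousOn
  obtain ⟨B₀, hB₀⟩ := (hV _).1 f₀.2
  have hf₀ : ∀ y, (f₀ : E →ᵇ ℝ) y ≤ (f₀ : E →ᵇ ℝ) x₀ := by
    intro y
    obtain ⟨γ, x, hx, rfl⟩ := hcov y
    exact hmax (⟨hinv γ f₀ hmem.1, hx⟩ : (act γ f₀, x) ∈ closure O ×ˢ D)
  have hconst : ∀ y, (f₀ : E →ᵇ ℝ) y = (f₀ : E →ᵇ ℝ) x₀ := const_of_max hG.cov hB₀ hf₀
  have hval : ∀ y, v y = (f₀ : E →ᵇ ℝ) x₀ := by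
    intro y
    refine eq_of_abs_sub_le_all fun ε hε => ?_
    obtain ⟨_, ⟨γ, rfl⟩, hγ⟩ := Metric.mem_closure_iff.1 hmem.1 ε hε
    have h1 := BoundedContinuousFunction.dist_coe_le_dist (f := (f₀ : E →ᵇ ℝ))
      (g := (act γ vb : E →ᵇ ℝ)) (γ⁻¹ • y)
    rw [hconst, hact, smul_inv_smul, hvb, Real.dist_eq, abs_sub_comm] at h1
    exact h1.trans (le_of_lt hγ)
  rw [hval y, hval y']

/-- the translates of a pluriharmonic function with bounded gradient: bounded displacement -/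
theorem Sheets.disp (S : Sheets p w C) (hG : IsGalois Γ p) {u : E → ℝ} {B : ℝ}
    (hu : IsPHB p w u B) (γ₀ : Γ) (a₀ : C.I) (γ₁ : Γ) (a₁ : C.I) :
    ∃ L : ℝ, ∀ g : Γ, ∀ z ∈ ball (C.c a₀) (2 * C.r a₀), ∀ z' ∈ ball (C.c a₁) (2 * C.r a₁),
      |u (g • γ₀ • S.σ a₀ z) - u (g • γ₁ • S.σ a₁ z')| ≤ L := by
  obtain ⟨L, hL0, hL⟩ := S.lip hG hu
  have hlip : ∀ (γ : Γ) (a : C.I), ∀ z ∈ ball (C.c a) (2 * C.r a),
      ∀ z' ∈ ball (C.c a) (2 * C.r a), |u (γ • S.σ a z) - u (γ • S.σ a z')| ≤ L * (4 * C.r a) := by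
    intro γ a z hz z' hz'
    refine (hL γ a z hz z' hz').trans (mul_le_mul_of_nonneg_left ?_ hL0)
    rw [mem_ball, dist_eq_norm] at hz hz'
    have : z - z' = (z - C.c a) - (z' - C.c a) := by abel
    rw [this]
    refine (norm_sub_le _ _).trans ?_
    linarith
  refine v12Stmt n Γ C (fun γ b => ∃ L : ℝ, ∀ g : Γ, ∀ z ∈ ball (C.c a₀) (2 * C.r a₀),
    ∀ z' ∈ ball (C.c b) (2 * C.r b), |u (g • γ₀ • S.σ a₀ z) - u (g • γ • S.σ b z')| ≤ L)
    (fun γ b d z₀ hO h1 h2 => ?_) γ₀ a₀ γ₁ a₁ ⟨L * (4 * C.r a₀), fun g z hz z' hz' => ?_⟩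
  · rintro ⟨L₁, hL₁⟩
    refine ⟨L₁ + L * (4 * C.r d), fun g z hz z' hz' => ?_⟩
    have h3 := hL₁ g z hz z₀ h1
    have h4 := hlip (g * (γ * C.κ b d z₀)) d (C.T b d z₀) h2 z' hz'
    have h5 : g • γ • S.σ b z₀ = (g * (γ * C.κ b d z₀)) • S.σ d (C.T b d z₀) := by
      rw [← S.glue b d z₀ hO, mul_smul, mul_smul]
    have h6 : g • (γ * C.κ b d z₀) • S.σ d z' = (g * (γ * C.κ b d z₀)) • S.σ d z' := by
      rw [mul_smul g]
    rw [h5] at h3
    rw [h6]
    calc _ ≤ |u (g • γ₀ • S.σ a₀ z) - u ((g * (γ * C.κ b d z₀)) • S.σ d (C.T b d z₀))| +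
        |u ((g * (γ * C.κ b d z₀)) • S.σ d (C.T b d z₀)) - u ((g * (γ * C.κ b d z₀)) • S.σ d z')| :=
          abs_sub_le _ _ _
      _ ≤ _ := add_le_add h3 h4
  · have h3 := hlip (g * γ₀) a₀ z hz z' hz'
    rwa [mul_smul, mul_smul] at h3

/-- `Folner` for `ℤ` -/
theorem folner_int : Folner (Multiplicative ℤ) := by
  intro S hS ε hε
  -- a bound for `S`
  obtain ⟨b, hb⟩ : ∃ b : ℕ, ∀ s ∈ S, (Multiplicative.toAdd s).natAbs ≤ b := by
    obtain ⟨b, hb⟩ := (hS.image fun s => (Multiplicative.toAdd s).natAbs).bddAbove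
    exact ⟨b, fun s hs => hb (mem_image_of_mem _ hs)⟩
  obtain ⟨m, hm⟩ := exists_nat_gt (b / ε)
  have hm0 : 0 < m := by
    have : (0 : ℝ) < m := lt_of_le_of_lt (by positivity) hm
    exact_mod_cast this
  set F : Set (Multiplicative ℤ) := Multiplicative.ofAdd '' (Set.Ico (0 : ℤ) m) with hF
  have hinj : Function.Injective (Multiplicative.ofAdd : ℤ → Multiplicative ℤ) :=
    Multiplicative.ofAdd.injective
  have hFc : (F.ncard : ℝ) = m := by
    rw [hF, Set.ncard_image_of_injective _ hinj]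
    have : (Set.Ico (0 : ℤ) m).ncard = m := by
      rw [← Finset.coe_Ico, Set.ncard_coe_finset, Int.card_Ico]; simp
    rw [this]
  refine ⟨F, (Set.finite_Ico _ _).image _, ⟨_, mem_image_of_mem _ ⟨le_rfl, by exact_mod_cast hm0⟩⟩,
    fun s hs => ?_⟩
  set k : ℤ := Multiplicative.toAdd s with hk
  have hkb : k.natAbs ≤ b := hb s hs
  have hsub : (s • F) \ F ⊆ Multiplicative.ofAdd ''
      ((Finset.Ico (min k 0) 0 ∪ Finset.Ico (m : ℤ) (max (m + k) m) : Finset ℤ) : Set ℤ) := by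
    rintro _ ⟨⟨_, ⟨i, hi, rfl⟩, rfl⟩, hn⟩
    have hi' := hi.1
    have hi'' := hi.2
    refine ⟨k + i, ?_, rfl⟩
    rw [Finset.coe_union, Finset.coe_Ico, Finset.coe_Ico]
    by_contra hc
    apply hn
    refine ⟨k + i, ?_, rfl⟩
    simp only [mem_union, mem_Ico, not_or, not_and, not_lt] at hc
    constructor
    · by_contra h
      push Not at h
      have := hc.1 (by omega)
      omega
    · by_contra h
      push Not at h
      have := hc.2 h
      omega
  have h1 : (((s • F) \ F).ncard : ℝ) ≤ b := by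
    have h2 := Set.ncard_le_ncard hsub ((Finset.finite_toSet _).image _)
    rw [Set.ncard_image_of_injective _ hinj, Set.ncard_coe_finset] at h2
    have h3 : (Finset.Ico (min k 0) 0 ∪ Finset.Ico (m : ℤ) (max (m + k) m)).card ≤ b := by
      refine (Finset.card_union_le _ _).trans ?_
      rw [Int.card_Ico, Int.card_Ico]
      omega
    exact_mod_cast h2.trans h3
  rw [hFc]
  refine h1.trans ?_
  rw [div_lt_iff₀ hε] at hm
  nlinarith

theorem phb_lin {u u' : E → ℝ} {B B' : ℝ} (V : Submodule ℝ (E → ℝ))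
    (hV : ∀ u, u ∈ V ↔ ∃ B, IsPHB p w u B) (hu : IsPHB p w u B) (hu' : IsPHB p w u' B') (r s : ℝ) :
    ∃ B, IsPHB p w (fun y => r * u y + s * u' y) B :=
  (hV _).1 (V.add_mem (V.smul_mem r ((hV u).2 ⟨B, hu⟩)) (V.smul_mem s ((hV u').2 ⟨B', hu'⟩)))

/-- a nonconstant pluriharmonic function invariant under the kernel -/
theorem exists_inv (hE : ExConcl) (h14 : V14Concl) (P : PU C) (K : KM C) (S : Sheets p w C)
    (H : Subgroup Γ) [H.FiniteIndex] (φ : H →* Multiplicative ℤ) (hφ : Function.Surjective φ) :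
    ∃ (v : E → ℝ) (B : ℝ), IsPHB p w v B ∧ (∃ y y', v y ≠ v y') ∧
      ∀ ν : H, φ ν = 1 → ∀ y, v ((ν : Γ) • y) = v y := by
  obtain ⟨u, B, hu⟩ := h14 n (Multiplicative ℤ) (sub C H φ hφ) (PUsub H φ hφ P) (KMsub H φ hφ K)
    (hE n (Multiplicative ℤ) (sub C H φ hφ) (PUsub H φ hφ P) (KMsub H φ hφ K) folner_int)
  have hl := lift_limFam H φ hφ hu
  obtain ⟨v, B', hv, hval⟩ := S.toE _ _ hl
  refine ⟨v, B', hv, ?_, fun ν hν y => ?_⟩
  · by_contra hcon
    push Not at hcon
    obtain ⟨γ, a, z, hz, hne⟩ := hl.nonconst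
    apply hne
    have h2 : lift H φ hφ u γ a =ᶠ[𝓝 z] fun _ => lift H φ hφ u γ a z := by
      filter_upwards [isOpen_ball.mem_nhds hz] with z' hz'
      rw [← hval γ a z' hz', ← hval γ a z hz]
      exact hcon _ _
    rw [h2.fderiv_eq]
    simp
  · obtain ⟨γ, a, z, hz, rfl⟩ := S.cover y
    rw [← mul_smul, hval _ a z hz, hval γ a z hz]
    exact lift_inv H φ hφ u ν hν γ a z

/-- the period of a function invariant under the kernel -/
theorem exists_period [ConnectedSpace E] (hG : IsGalois Γ p) (S : Sheets p w C)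
    (V : Submodule ℝ (E → ℝ)) [FiniteDimensional ℝ V] (hV : ∀ u, u ∈ V ↔ ∃ B, IsPHB p w u B)
    (H : Subgroup Γ) [H.FiniteIndex] (φ : H →* Multiplicative ℤ) (hφ : Function.Surjective φ)
    {v : E → ℝ} {B : ℝ} (hv : IsPHB p w v B) (hne : ∃ y y', v y ≠ v y')
    (hinv : ∀ ν : H, φ ν = 1 → ∀ y, v ((ν : Γ) • y) = v y) :
    ∃ (u : E → ℝ) (B : ℝ), IsPHB p w u B ∧
      ∀ (h : H) (y : E), u ((h : Γ) • y) = u y + (Multiplicative.toAdd (φ h) : ℤ) := by
  obtain ⟨D, hD, hcov⟩ := S.exists_compact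
  obtain ⟨t, ht⟩ := hφ (Multiplicative.ofAdd 1)
  have hdep : ∀ h h' : H, φ h = φ h' → ∀ y, v ((h : Γ) • y) = v ((h' : Γ) • y) := by
    intro h h' hh y
    have h1 : ((h : Γ)) • y = ((h * h'⁻¹ : H) : Γ) • (h' : Γ) • y := by
      rw [← mul_smul]
      congr 1
      simp
    rw [h1]
    exact hinv _ (by rw [map_mul, map_inv, hh, mul_inv_cancel]) _
  have hpow : ∀ k : ℤ, φ (t ^ k) = Multiplicative.ofAdd k := by
    intro k
    rw [map_zpow, ht, ← ofAdd_zsmul]
    simp
  have hpk : ∀ h : H, φ h = φ (t ^ (Multiplicative.toAdd (φ h) : ℤ)) := by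
    intro h
    rw [hpow, ofAdd_toAdd]
  -- bounded displacement
  have hdisp : ∃ M : ℝ, ∀ y, |v ((t : Γ) • y) - v y| ≤ M := by
    have h1 : ∀ q : (Γ ⧸ H) × C.I, ∃ L : ℝ, ∀ g : Γ, ∀ z ∈ ball (C.c q.2) (2 * C.r q.2),
        ∀ z' ∈ ball (C.c q.2) (2 * C.r q.2),
        |v (g • ((t : Γ) * rp H q.1) • S.σ q.2 z) - v (g • (rp H q.1) • S.σ q.2 z')| ≤ L :=
      fun q => S.disp hG hv _ _ _ _
    choose L hL using h1
    refine ⟨∑ q, |L q|, fun y => ?_⟩
    obtain ⟨γ, a, z, hz, rfl⟩ := S.cover y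
    set h := hp H γ with hh
    set i := cl H γ with hi
    have hγ : γ = (h : Γ) * rp H i := (hp_mul_rp H γ).symm
    set k : ℤ := Multiplicative.toAdd (φ h) with hk
    have e1 : v (γ • S.σ a z) = v (((t ^ k : H) : Γ) • (rp H i) • S.σ a z) := by
      rw [hγ, mul_smul]
      exact hdep _ _ (hpk h) _
    have e2 : v ((t : Γ) • γ • S.σ a z) =
        v (((t ^ k : H) : Γ) • ((t : Γ) * rp H i) • S.σ a z) := by
      rw [hγ, mul_smul, mul_smul, ← mul_smul, ← mul_smul (((t ^ k : H) : Γ))]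
      have := hdep (t * h) (t ^ k * t) (by rw [map_mul, map_mul, hpk h, mul_comm]) (rp H i • S.σ a z)
      simpa using this
    rw [e1, e2]
    refine (hL (i, a) _ z hz z hz).trans ((le_abs_self _).trans ?_)
    exact Finset.single_le_sum (f := fun q => |L q|) (fun q _ => abs_nonneg _)
      (Finset.mem_univ (i, a))
  obtain ⟨M, hM⟩ := hdisp
  have hvt : IsPHB p w (fun y => v ((t : Γ) • y)) B := phb_smul hG hv _
  have hdV : (fun y => v ((t : Γ) • y) - v y) ∈ V := by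
    have := phb_lin V hV hvt hv 1 (-1)
    rw [hV]
    obtain ⟨B', hB'⟩ := this
    refine ⟨B', ?_⟩
    have e : (fun y => v ((t : Γ) • y) - v y) = fun y => 1 * v ((t : Γ) • y) + -1 * v y := by
      funext y; ring
    rw [e]
    exact hB'
  have hc := bdd_const hG hD hcov V hV hdV hM
  obtain ⟨y₀, y₁, hne⟩ := hne
  set c : ℝ := v ((t : Γ) • y₀) - v y₀ with hcdef
  have hstep : ∀ y, v ((t : Γ) • y) = v y + c := by
    intro y
    have := hc y y₀
    rw [hcdef]
    linarith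
  have hk : ∀ (k : ℤ) (y : E), v (((t ^ k : H) : Γ) • y) = v y + k * c := by
    have hnat : ∀ (k : ℕ) (y : E), v (((t ^ k : H) : Γ) • y) = v y + k * c := by
      intro k
      induction k with
      | zero => intro y; simp
      | succ k ih =>
        intro y
        have : ((t ^ (k + 1) : H) : Γ) • y = ((t ^ k : H) : Γ) • (t : Γ) • y := by
          rw [← mul_smul, pow_succ]
          rfl
        rw [this, ih, hstep]
        push_cast
        ring
    intro k y
    obtain ⟨m, rfl | rfl⟩ := k.eq_nat_or_neg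
    · have := hnat m y
      simpa using this
    · have h1 := hnat m (((t ^ (-(m : ℤ)) : H) : Γ) • y)
      have h2 : ((t ^ m : H) : Γ) • ((t ^ (-(m : ℤ)) : H) : Γ) • y = y := by
        rw [← mul_smul]
        have : ((t ^ m : H) : Γ) * ((t ^ (-(m : ℤ)) : H) : Γ) = 1 := by
          rw [← Subgroup.coe_mul]
          simp
        rw [this, one_smul]
      rw [h2] at h1
      have h3 : ((-(m : ℤ) : ℤ) : ℝ) = -(m : ℝ) := by push_cast; rfl
      rw [h3]
      linarith
  have hall : ∀ (h : H) (y : E), v ((h : Γ) • y) = v y + (Multiplicative.toAdd (φ h) : ℤ) * c := by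
    intro h y
    rw [hdep _ _ (hpk h) y, hk]
  have hc0 : c ≠ 0 := by
    intro h0
    apply hne
    -- invariant functions are bounded
    have hcontv : Continuous v := phb_continuous hG.cov hv
    have h1 : ∀ i : Γ ⧸ H, ∃ L : ℝ, ∀ x ∈ D, ‖v (rp H i • x)‖ ≤ L := fun i =>
      hD.exists_bound_of_continuousOn (hcontv.comp (hG.cont (rp H i))).continuousOn
    choose L hL using h1
    refine bdd_const hG hD hcov V hV ((hV v).2 ⟨B, hv⟩) (M := ∑ i, |L i|) (fun y => ?_) y₀ y₁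
    obtain ⟨γ, x, hx, rfl⟩ := hcov y
    have hγ : γ = ((hp H γ : H) : Γ) * rp H (cl H γ) := (hp_mul_rp H γ).symm
    have h2 : v (γ • x) = v (rp H (cl H γ) • x) := by
      conv_lhs => rw [hγ, mul_smul]
      rw [hall, h0, mul_zero, add_zero]
    rw [h2, ← Real.norm_eq_abs]
    refine (hL _ x hx).trans ((le_abs_self _).trans ?_)
    exact Finset.single_le_sum (f := fun i => |L i|) (fun q _ => abs_nonneg _) (Finset.mem_univ _)
  obtain ⟨B', hB'⟩ := phb_lin V hV hv hv c⁻¹ 0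
  refine ⟨_, B', hB', fun h y => ?_⟩
  rw [hall]
  field_simp
  ring

end

/-- **S1** (Hodge): every homomorphism to `ℤ` of a subgroup of finite index is the period of a
pluriharmonic function with bounded gradient. -/
def S1Stmt : Prop :=
  ∀ (n : ℕ) (X : Type) [TopologicalSpace X] [T2Space X] [CompactSpace X] [ConnectedSpace X]
    [ChartedSpace (Cm n) X] [IsManifold 𝓘(ℂ, Cm n) ω X]
    (w : Chart n X → Cm n → Matrix (Fin n) (Fin n) ℂ), IsKahler w →
    ∀ (E Γ : Type) [TopologicalSpace E] [ConnectedSpace E] [Group Γ] [MulAction Γ E] (p : E → X),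
    IsGalois Γ p → ∀ V : Submodule ℝ (E → ℝ), FiniteDimensional ℝ V →
    (∀ u, u ∈ V ↔ ∃ B, IsPHB p w u B) →
    ∀ (H : Subgroup Γ), H.FiniteIndex → ∀ φ : H →* Multiplicative ℤ,
    ∃ (u : E → ℝ) (B : ℝ), IsPHB p w u B ∧
      ∀ (h : H) (y : E), u ((h : Γ) • y) = u y + (Multiplicative.toAdd (φ h) : ℤ)

theorem s1_of (hE : ExConcl) (h14 : V14Concl) : S1Stmt := by
  intro n X _ _ _ _ _ _ w hw E Γ _ _ _ _ p hG V hfd hV H hH φ
  obtain ⟨C, P, K, ⟨S⟩⟩ := exists_sheets n X w hw E Γ p hG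
  by_cases htriv : ∀ h, φ h = 1
  · have h0 : (0 : E → ℝ) ∈ V := V.zero_mem
    obtain ⟨B, hB⟩ := (hV 0).1 h0
    refine ⟨0, B, hB, fun h y => ?_⟩
    rw [htriv h]
    simp
  · push Not at htriv
    obtain ⟨h₀, hh₀⟩ := htriv
    -- the image is infinite cyclic
    set R := φ.range with hR
    have hRinf : Infinite R := by
      have hne : (⟨φ h₀, h₀, rfl⟩ : R) ≠ 1 := fun h => hh₀ (congrArg Subtype.val h)
      refine Infinite.of_injective (fun k : ℤ => (⟨φ h₀, h₀, rfl⟩ : R) ^ k) ?_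
      intro k l hkl
      have h1 := congrArg Subtype.val hkl
      simp only [SubgroupClass.coe_zpow] at h1
      have h2 := congrArg Multiplicative.toAdd h1
      rw [toAdd_zpow, toAdd_zpow] at h2
      have h3 : Multiplicative.toAdd (φ h₀) ≠ 0 := fun h => hh₀ (by
        rw [← ofAdd_toAdd (φ h₀), h, ofAdd_zero])
      simpa [h3] using h2
    have hcyc : IsCyclic R := inferInstance
    have hcard : Nat.card R = 0 := Nat.card_eq_zero_of_infinite
    obtain ⟨e⟩ : Nonempty (R ≃* Multiplicative ℤ) := by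
      have e0 := (zmodCyclicMulEquiv (G := R) hcyc).symm
      rw [hcard] at e0
      exact ⟨e0⟩
    set ψ : H →* Multiplicative ℤ := e.toMonoidHom.comp φ.rangeRestrict with hψ
    have hψs : Function.Surjective ψ := e.surjective.comp φ.rangeRestrict_surjective
    obtain ⟨v, B, hv, hne, hinv⟩ := exists_inv hE h14 P K S H ψ hψs
    obtain ⟨u, B', hu, hper⟩ := exists_period hG S V hV H ψ hψs hv hne hinv
    set m : ℤ := Multiplicative.toAdd ((e.symm (Multiplicative.ofAdd 1) : R) : Multiplicative ℤ)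
      with hm
    have hφψ : ∀ h, (Multiplicative.toAdd (φ h) : ℤ) = Multiplicative.toAdd (ψ h) * m := by
      intro h
      have h1 : φ h = ((e.symm (ψ h) : R) : Multiplicative ℤ) := by
        rw [hψ]
        simp only [MonoidHom.comp_apply, MulEquiv.toMonoidHom_eq_coe, MonoidHom.coe_coe,
          MulEquiv.symm_apply_apply]
        rfl
      have h2 : ψ h = (Multiplicative.ofAdd (1 : ℤ)) ^ (Multiplicative.toAdd (ψ h)) := by
        rw [← ofAdd_zsmul]
        simp
      rw [h1]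
      conv_lhs => rw [h2, map_zpow]
      rw [SubgroupClass.coe_zpow, toAdd_zpow, smul_eq_mul]
    obtain ⟨B'', hB''⟩ := phb_lin V hV hu hu (m : ℝ) 0
    refine ⟨_, B'', hB'', fun h y => ?_⟩
    rw [hper, hφψ]
    push_cast
    ring


end Vale.Agent.P284.H446.V
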