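import Vale.Agent.P284.H409.T.Spec
import Vale.Agent.P284.H446.Ker
import Vale.Agent.P284.H409.Core

/-!
# P284, theorem T, row TK (helper446): the kernel of the period map is Kazhdan, or `G` has a
finite-dimensional representation with image not virtually solvable.
-/

open scoped Manifold ContDiff Topology Pointwise ComplexConjugate ComplexOrder
open Filter Set Metric MeasureTheory

noncomputable section

namespace Vale.Agent.P284.H446.TK

open Vale.Agent.P272.K Vale.Agent.P284.H248 Vale.Agent.P284.H894 Vale.Agent.P284.H894.G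
  Vale.Agent.P284.H894.V Vale.Agent.P284.H894.W Vale.Agent.P284.H409.A Vale.Agent.P284.H446.QC
  Vale.Agent.P284.H119.Kaz Vale.Agent.P284.H409.T

/-- cocompactness passes to subgroups of finite index -/
lemma cocompact_sub {E Γ : Type} [TopologicalSpace E] [Group Γ] [MulAction Γ E]
    (hc : ∀ γ : Γ, Continuous fun y : E => γ • y) {S S' : Subgroup Γ}
    (hfi : (S'.subgroupOf S).FiniteIndex) {V₁ : Set E}
    (hQ : ∃ Q : Set E, IsCompact Q ∧ ∀ y ∈ V₁, ∃ s ∈ S, s • y ∈ Q) :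
    ∃ Q : Set E, IsCompact Q ∧ ∀ y ∈ V₁, ∃ s ∈ S', s • y ∈ Q := by
  obtain ⟨Q, hQc, hQ⟩ := hQ
  have : Finite (S ⧸ S'.subgroupOf S) := (S'.subgroupOf S).finite_quotient_of_finiteIndex
  refine ⟨⋃ q : S ⧸ S'.subgroupOf S, (fun y => ((Quotient.out q : S) : Γ)⁻¹ • y) '' Q,
    isCompact_iUnion fun q => hQc.image (hc _), fun y hy => ?_⟩
  obtain ⟨s, hs, hsy⟩ := hQ y hy
  set q : S ⧸ S'.subgroupOf S := QuotientGroup.mk ⟨s, hs⟩ with hq
  have h1 : (Quotient.out q : S)⁻¹ * ⟨s, hs⟩ ∈ S'.subgroupOf S := by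
    rw [← QuotientGroup.eq]
    exact Quotient.out_eq _
  have h2 : ((Quotient.out q : S) : Γ)⁻¹ * s ∈ S' := h1
  refine ⟨_, h2, ?_⟩
  rw [mem_iUnion]
  refine ⟨q, s • y, hsy, ?_⟩
  simp only [mul_smul]

/-- the fibre of the Albanese map, for all small subgroups of finite index -/
theorem fib_gen (hR : RankStmt2) (h4 : S4Stmt2) (hGeo : GeoStmt) (hFD : FDStmt2)
    {n : ℕ} {X : Type} [TopologicalSpace X] [T2Space X] [CompactSpace X] [ConnectedSpace X]
    [ChartedSpace (Cm n) X] [IsManifold 𝓘(ℂ, Cm n) ω X]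
    {w : Chart n X → Cm n → Matrix (Fin n) (Fin n) ℂ} (hw : IsKahler w)
    {Φ : Cm n → X} (hΦ : FiniteOrder w Φ)
    {E Γ : Type} [TopologicalSpace E] [SimplyConnectedSpace E] [Group Γ] [MulAction Γ E]
    {p : E → X} (hp : IsGalois Γ p) {G K : Subgroup Γ} {N : ℕ} {F : E → Cm N} {c : Γ → Cm N}
    (hAl : Alb p w G K F c) :
    ∃ S : Subgroup Γ, S ≤ K ∧ (S.subgroupOf K).FiniteIndex ∧
      ∀ S' : Subgroup Γ, S' ≤ S → (S'.subgroupOf K).FiniteIndex →
      ∃ (m : ℕ) (Y : Type) (_ : TopologicalSpace Y) (_ : T2Space Y) (_ : CompactSpace Y)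
        (_ : ConnectedSpace Y) (_ : ChartedSpace (Cm m) Y) (_ : IsManifold 𝓘(ℂ, Cm m) ω Y)
        (w₁ : Chart m Y → Cm m → Matrix (Fin m) (Fin m) ℂ) (V₁ : Type) (_ : TopologicalSpace V₁)
        (_ : ConnectedSpace V₁) (_ : MulAction S' V₁) (p₁ : V₁ → Y),
        IsKahler w₁ ∧ IsGalois S' p₁ ∧
        ∃ V : Submodule ℝ (V₁ → ℝ), FiniteDimensional ℝ V ∧ ∀ u, (∃ B, IsPHB p₁ w₁ u B) → u ∈ V := by
  obtain ⟨Φl, hΦl, hpΦ⟩ := H977.liftStmt n X E p hp.cov hp.surj Φ hΦ.holo.continuous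
  obtain ⟨P, hP, ζ, -, hζi, hζs⟩ := hR n X w hw Φ hΦ E Γ p hp G K N F c hAl Φl hΦl hpΦ
  obtain ⟨T, hT, hTi, hTx⟩ := h4 n X w hw Φ hΦ.holo E Γ p hp G K N F c hAl Φl hΦl hpΦ P hP ⟨ζ, hζs⟩
  have hFDr := hFD n X w hw Φ hΦ E p hp.cov N F hAl.hol Φl hΦl hpΦ P hP ⟨ζ, hζs⟩
  have hPP : ContDiff ℂ 1 (fun ζ => F (Φl ζ)) := by
    rw [contDiff_pi]
    intro i
    have : (fun ζ => F (Φl ζ) i) = fun ζ => MvPolynomial.eval ζ (P i) := funext fun ζ => hP ζ i
    rw [this, contDiff_iff_contDiffAt]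
    intro z
    exact (AnalyticOnNhd.eval_mvPolynomial (𝕜 := ℂ) (P i) z (mem_univ z)).contDiffAt
  obtain ⟨ζ₁, h1, h2, h3⟩ := exists_zeta hPP (inj_near hΦ.holo hζi) hζs hT hTi hFDr
  obtain ⟨hreg, S, hSK, hSf, hSs, hSo, hSQ⟩ := hTx (Φl ζ₁) h2
  have hFDx := h3 h1 hreg
  set x := Φl ζ₁ with hx
  set V₁ := connectedComponentIn (F ⁻¹' {F x}) x with hV₁
  obtain ⟨V, hVf, hV⟩ := hFDx
  have hVF : ∀ y ∈ V₁, F y = F x := fun y hy => connectedComponentIn_subset (F ⁻¹' {F x}) x hy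
  obtain ⟨B, hB⟩ := hAl.hol
  have hFc : Continuous F := H35.S4.holB_continuous hp.cov hB
  have hxm : x ∈ F ⁻¹' {F x} := rfl
  have hconn : IsConnected V₁ := isConnected_connectedComponentIn_iff.2 hxm
  have hSF : ∀ s ∈ S, ∀ y, F (s • y) = F y := fun s hs y => by
    obtain ⟨a, b⟩ := (hAl.mem s).1 (hSK hs)
    rw [hAl.equiv s a, b, add_zero]
  have hclosed : IsClosed V₁ := by
    have h5 : IsClosed (F ⁻¹' {F x}) := isClosed_singleton.preimage hFc
    have h6 : closure V₁ ⊆ F ⁻¹' {F x} := h5.closure_subset_iff.2 (connectedComponentIn_subset _ _)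
    have h7 : closure V₁ ⊆ V₁ := hconn.isPreconnected.closure.subset_connectedComponentIn
      (subset_closure (mem_connectedComponentIn hxm)) h6
    exact isClosed_of_closure_subset h7
  have hcs : ConnectedSpace V₁ := isConnected_iff_connectedSpace.1 hconn
  refine ⟨S, hSK, hSf, fun S' hle hfi => ?_⟩
  have hfi' : (S'.subgroupOf S).FiniteIndex := by
    have h5 := Subgroup.relIndex_mul_relIndex S' S K hle hSK
    have h6 : S'.relIndex K ≠ 0 := hfi.index_ne_zero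
    refine ⟨fun h7 => h6 ?_⟩
    rw [← h5]
    have h8 : S'.relIndex S = 0 := h7
    rw [h8, zero_mul]
  obtain ⟨m, Y, i1, i2, i3, i4, i5, i6, w₁, i7, p₁, -, hw₁, hsm, hp₁, hal⟩ :=
    hGeo n X w hw E Γ p hp N F ⟨B, hB⟩ S' (F x) V₁ (fun s hs => hSF s (hle hs))
      (fun s hs => hSs s (hle hs)) hconn
      hVF hSo hclosed (fun y hy => hreg y (hVF y hy)) (cocompact_sub hp.cont hfi' hSQ)
  exact ⟨m, Y, i1, i2, i3, i4, i5, i6, w₁, V₁, inferInstance, hcs, i7, p₁, hw₁, hp₁, V, hVf,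
    fun u ⟨B, hu⟩ => hV u ⟨B, hal u B hu⟩⟩

/-- `K` is not virtually indicable. -/
theorem not_virt (h15 : V15Stmt) (hR : RankStmt2) (hG : GrpAStmt) (hU : UniConcl)
    (hS : StkStmt) (hL : LiftStmt)
    {n : ℕ} {X : Type} [TopologicalSpace X] [T2Space X] [CompactSpace X] [ConnectedSpace X]
    [ChartedSpace (Cm n) X] [IsManifold 𝓘(ℂ, Cm n) ω X]
    {w : Chart n X → Cm n → Matrix (Fin n) (Fin n) ℂ} (hw : IsKahler w)
    {Φ : Cm n → X} (hΦ : FiniteOrder w Φ)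
    {E Γ : Type} [TopologicalSpace E] [SimplyConnectedSpace E] [Group Γ] [MulAction Γ E]
    {p : E → X} (hp : IsGalois Γ p) {G K : Subgroup Γ} {N : ℕ} {F : E → Cm N} {c : Γ → Cm N}
    (hAl : Alb p w G K F c) (hKfg : Group.FG K) : ¬ VirtIndicable K := by
  intro h10
  obtain ⟨_, _, _, hfg, -⟩ := h15 n X w hw E Γ p hp
  have hadd := alb_add hAl
  refine end_of h15 hR hS hL hw hΦ hp hAl
    (hG Γ Γ (MonoidHom.id Γ) Function.surjective_id hfg G K hAl.fi N c hadd hAl.mem hAl.disc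
      hAl.span ?_ ?_ (hU n X w hw Φ hΦ E Γ p hp G K N F c hAl))
  · rw [Subgroup.map_id]; exact hKfg
  · rw [Subgroup.map_id]; exact h10

/-- **TK** -/
theorem tkStmt_of (hR : RankStmt2) (h4 : S4Stmt2) (hGeo : GeoStmt) (hFD : FDStmt2)
    (h15 : V15Stmt) (hG : GrpAStmt) (hU : UniConcl) (hS : StkStmt) (hL : LiftStmt)
    (hK : H894.S.KerStmt) : TKStmt := by
  intro hT n X _ _ _ _ _ _ w hw Φ hΦ E Γ _ _ _ _ p hp G K N F c hAl
  by_cases hk : Kazhdan K
  · exact Or.inl hk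
  right
  obtain ⟨hKfg, -⟩ := hK n X w hw Φ hΦ E Γ p hp G K N F c hAl
  obtain ⟨S, hSK, hSf, hgen⟩ := fib_gen hR h4 hGeo hFD hw hΦ hp hAl
  obtain ⟨L, hLS, hLf, hLa⟩ := H409.exists_char (S.subgroupOf K)
  have hadd := alb_add hAl
  have hKG : K ≤ G := fun g hg => ((hAl.mem g).1 hg).1
  have hc1 : c 1 = 0 := by
    have := hadd 1 G.one_mem 1 G.one_mem
    rw [one_mul] at this
    simpa using this
  have hKn : ∀ g ∈ G, ∀ k ∈ K, g * k * g⁻¹ ∈ K := by
    intro g hg k hk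
    have hkG := hKG hk
    have h5 : c k = 0 := ((hAl.mem k).1 hk).2
    refine (hAl.mem _).2 ⟨G.mul_mem (G.mul_mem hg hkG) (G.inv_mem hg), ?_⟩
    rw [hadd _ (G.mul_mem hg hkG) _ (G.inv_mem hg), hadd g hg k hkG, h5, add_zero,
      ← hadd g hg _ (G.inv_mem hg), mul_inv_cancel, hc1]
  set S' : Subgroup Γ := L.map K.subtype with hS'
  have hS'K : S' ≤ K := Subgroup.map_subtype_le _
  have hS'S : S' ≤ S := by
    rintro _ ⟨x, hx, rfl⟩
    exact hLS hx
  have hS'o : S'.subgroupOf K = L := by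
    rw [hS', Subgroup.subgroupOf, Subgroup.comap_map_eq_self_of_injective K.subtype_injective]
  have hS'f : (S'.subgroupOf K).FiniteIndex := by rw [hS'o]; exact hLf
  let eL : L ≃* S' := L.equivMapOfInjective K.subtype K.subtype_injective
  have hnk : ¬ Kazhdan S' := fun h => hk (Kazhdan.of_finiteIndex L (h.of_equiv eL.symm))
  obtain ⟨m, Y, i1, i2, i3, i4, i5, i6, w₁, V₁, i8, i9, i7, p₁, hw₁, hp₁, hV⟩ :=
    hgen S' hS'S hS'f
  have hTn : (S'.subgroupOf G).Normal := by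
    constructor
    intro x hx g
    rw [Subgroup.mem_subgroupOf] at hx ⊢
    obtain ⟨y, hy, hyx⟩ := hx
    -- conjugation by `g` on `K`
    let α : K ≃* K :=
      { toFun := fun k => ⟨(g : Γ) * k * (g : Γ)⁻¹, hKn g g.2 k k.2⟩
        invFun := fun k => ⟨(g : Γ)⁻¹ * k * (g : Γ), by
          have := hKn ((g : Γ)⁻¹) (G.inv_mem g.2) k k.2
          rwa [inv_inv] at this⟩
        left_inv := fun k => Subtype.ext (by simp [mul_assoc])
        right_inv := fun k => Subtype.ext (by simp [mul_assoc])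
        map_mul' := fun a b => Subtype.ext (by simp [mul_assoc]) }
    refine ⟨α y, hLa α y hy, ?_⟩
    have h6 : (x : Γ) = y := hyx.symm
    show (g : Γ) * y * (g : Γ)⁻¹ = ((g * x * g⁻¹ : G) : Γ)
    push_cast
    rw [h6]
  rcases hT m Y w₁ hw₁ V₁ S' p₁ hp₁ hnk hV G (S'.subgroupOf G) hTn
      (Subgroup.subgroupOfEquivOfLe (hS'K.trans hKG)) with h | h
  · exfalso
    have h7 : VirtIndicable L := H913.V.VirtIndicable.of_surjective eL.toMonoidHom eL.surjective h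
    exact not_virt h15 hR hG hU hS hL hw hΦ hp hAl hKfg (H913.V.VirtIndicable.of_subgroup L h7)
  · exact h

/-- **TK**, with all inputs -/
theorem tkStmt : TKStmt :=
  tkStmt_of H119.R.rankStmt2 H10.s4Stmt2 H730.G.geoStmt H639.FD.fdStmt2 H639.V.v15Stmt
    H409.A.grpAStmt H894.A.uniConcl H894.W.stkStmt H977.liftStmt H446.Ker.kerStmt

end Vale.Agent.P284.H446.TK
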