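import Vale.Agent.P284.H446.Cut
import Vale.Agent.P284.H446.LocSpec
import Vale.Agent.P284.H446.MinSeq
import Mathlib.Algebra.Order.Chebyshev

/-!
# P284, theorem V, block V7 (helper446): the range of `l - Lap` is dense for large `l`
-/

open scoped Manifold ContDiff Topology Pointwise ComplexConjugate ComplexOrder
open Filter Set Metric MeasureTheory

noncomputable section

namespace Vale.Agent.P284.H446.V

open Vale.Agent.P272.K Vale.Agent.P272.K.C2 Vale.Agent.P284.H248 Vale.Agent.P284.H894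
  Vale.Agent.P284.H894.V Vale.Agent.P284.H639.V

section
variable {n : ℕ} {Γ : Type} [Group Γ] {C : Coc n Γ}

theorem Fam_mul {G H : Γ → C.I → Cm n → ℝ} (hG : Fam C G) (hH : Fam C H) :
    Fam C (fun γ a z => G γ a z * H γ a z) where
  cont γ a := (hG.cont γ a).mul (hH.cont γ a)
  compat γ a b z hz := by rw [hG.compat γ a b z hz, hH.compat γ a b z hz]
  fin := by
    refine hG.fin.subset ?_
    rintro γ ⟨a, z, hz, hne⟩
    exact ⟨a, z, hz, fun h0 => hne (by rw [h0, zero_mul])⟩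

theorem Fam_sq {G : Γ → C.I → Cm n → ℝ} (hG : Fam C G) : Fam C (fun γ a z => G γ a z ^ 2) := by
  simpa only [sq] using Fam_mul hG hG

theorem Fam_const_mul {G : Γ → C.I → Cm n → ℝ} (hG : Fam C G) (r : ℝ) :
    Fam C (fun γ a z => r * G γ a z) := by
  simpa using fam_lin hG hG r 0

theorem Int_const_mul (h3 : V3Stmt) (P : PU C) (K : KM C) {G : Γ → C.I → Cm n → ℝ}
    (hG : Fam C G) (r : ℝ) : Int P K (fun γ a z => r * G γ a z) = r * Int P K G := by
  have := h3.lin C P K G G r 0 hG hG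
  simpa using this

theorem Int_add (h3 : V3Stmt) (P : PU C) (K : KM C) {G H : Γ → C.I → Cm n → ℝ}
    (hG : Fam C G) (hH : Fam C H) :
    Int P K (fun γ a z => G γ a z + H γ a z) = Int P K G + Int P K H := by
  have := h3.lin C P K G H 1 1 hG hH
  simpa using this

theorem Fam_add {G H : Γ → C.I → Cm n → ℝ} (hG : Fam C G) (hH : Fam C H) :
    Fam C (fun γ a z => G γ a z + H γ a z) := by
  simpa using fam_lin hG hH 1 1

theorem vol_pos (K : KM C) {a : C.I} {z : Cm n} (hz : z ∈ C.V a) : 0 < vol (K.w a) z :=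
  K.lam_pos.trans_le (K.vol_low a z (V_sub_Ω C a hz))

/-- one piece is dominated by the total integral -/
theorem piece_le (h3 : V3Stmt) (P : PU C) (K : KM C) {G : Γ → C.I → Cm n → ℝ} (hG : Fam C G)
    (h0 : ∀ γ a, ∀ z ∈ C.Ω a, 0 ≤ G γ a z) (γ : Γ) (a : C.I) :
    ∫ z in C.V a, G γ a z * vol (K.w a) z ≤ Int P K G := by
  refine le_trans ?_ (h3.le C P K G hG h0 a)
  have hs : Summable (fun γ => ∫ z in C.V a, G γ a z * vol (K.w a) z) := by
    refine summable_of_hasFiniteSupport (hG.fin.subset fun γ hγ => ?_)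
    by_contra hn
    refine hγ ?_
    simp only [mem_ofPred_eq, not_exists, not_and, not_not] at hn
    refine setIntegral_eq_zero_of_forall_eq_zero fun z hz => ?_
    rw [hn a z hz, zero_mul]
  refine hs.le_tsum γ fun γ' _ => setIntegral_nonneg measurableSet_ball fun z hz => ?_
  exact mul_nonneg (h0 γ' a z (V_sub_Ω C a hz)) (vol_pos K hz).le

/-- `l - Lap` -/
def TT (h5 : V5Concl) (K : KM C) (l : ℝ) : Asm.tst C →ₗ[ℝ] Asm.tst C :=
  l • LinearMap.id - Asm.lapF h5 K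

theorem TT_apply (h5 : V5Concl) (K : KM C) (l : ℝ) (v : Asm.tst C) (γ : Γ) (a : C.I) (z : Cm n) :
    (TT h5 K l v : Γ → C.I → Cm n → ℝ) γ a z =
      l * (v : Γ → C.I → Cm n → ℝ) γ a z - Lap K (v : Γ → C.I → Cm n → ℝ) γ a z := rfl

/-- the weak equation in the limit -/
theorem weak_lim (h3 : V3Stmt) (h4 : V4Stmt) (h5 : V5Concl) (P : PU C) (K : KM C) (l : ℝ)
    {h : ℕ → Asm.tst C}
    (hh : ∀ u, Tendsto (fun j => Asm.ipF h3 h5 P K (h j) (TT h5 K l u)) atTop (𝓝 0))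
    (γ₀ : Γ) (b : C.I) {F : Cm n → ℝ} (hF : TU (C.V b) F) :
    Tendsto (fun j => ∫ z in C.V b, (h j : Γ → C.I → Cm n → ℝ) γ₀ b z *
      (l * F z - lap (K.w b) F z) * vol (K.w b) z) atTop (𝓝 0) := by
  obtain ⟨f₀, hf₀, hs, he, hz0⟩ := h4 n Γ C γ₀ b F hF
  refine (hh ⟨f₀, hf₀⟩).congr fun j => ?_
  set u : Asm.tst C := ⟨f₀, hf₀⟩ with hu
  -- values of `T u`
  have hTΩ : ∀ γ a z, z ∈ C.Ω a → (TT h5 K l u : Γ → C.I → Cm n → ℝ) γ a z =
      l * f₀ γ a z - lap (K.w a) (f₀ γ a) z := by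
    intro γ a z hz
    rw [TT_apply, Lap_mem K γ hz]
  have hfam : Fam C (fun γ a z => (h j : Γ → C.I → Cm n → ℝ) γ a z *
      (TT h5 K l u : Γ → C.I → Cm n → ℝ) γ a z) :=
    Fam_mul (isTst_fam (h j).2) (isTst_fam (TT h5 K l u).2)
  show Int P K (fun γ a z => (h j : Γ → C.I → Cm n → ℝ) γ a z *
      (TT h5 K l u : Γ → C.I → Cm n → ℝ) γ a z) = _
  rw [h3.piece C P K _ b (tsupport F) hfam hF.compact hF.supp ?_]
  · rw [tsum_eq_single γ₀ fun γ hγ => ?_]
    · refine setIntegral_congr_fun measurableSet_ball fun z hz => ?_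
      have hz' := V_sub_Ω C b hz
      have e : f₀ γ₀ b =ᶠ[𝓝 z] F := by
        filter_upwards [(isOpen_Ω C b).mem_nhds hz'] with y hy using he y hy
      show (h j : Γ → C.I → Cm n → ℝ) γ₀ b z * (TT h5 K l u : Γ → C.I → Cm n → ℝ) γ₀ b z *
        vol (K.w b) z = _
      rw [hTΩ γ₀ b z hz', lap_congr e, e.self_of_nhds]
    · refine setIntegral_eq_zero_of_forall_eq_zero fun z hz => ?_
      have hz' := V_sub_Ω C b hz
      have e : f₀ γ b =ᶠ[𝓝 z] fun _ => 0 := by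
        filter_upwards [(isOpen_Ω C b).mem_nhds hz'] with y hy using hz0 γ hγ y hy
      rw [hTΩ γ b z hz', lap_eq_zero e, e.self_of_nhds]
      ring
  · intro γ a z hz hne
    by_contra hn
    apply hne
    have e : f₀ γ a =ᶠ[𝓝 z] fun _ => 0 := by
      filter_upwards [C.closed a b (tsupport F) hF.compact (hF.supp.trans (V_sub_Ω C b)) z hz hn]
        with y hy
      by_contra h0
      have := hs γ a y h0
      exact hy ⟨this.1, this.2.2⟩
    rw [hTΩ γ a z hz, lap_eq_zero e, e.self_of_nhds]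
    ring

/-- the energy inequality for the cut-off functions -/
theorem step_cut (h3 : V3Stmt) (h5 : V5Concl) (P : PU C) (K : KM C) {l : ℝ}
    {h : ℕ → Asm.tst C} (F : Set Γ) (hF : F.Finite)
    (hloc : ∀ (γ : Γ) (b : C.I) (ζ : Cm n → ℝ), TU (C.V b) ζ → ∀ ε : ℝ, 0 < ε → ∀ᶠ j in atTop,
      l * ∫ z in C.V b, ζ z ^ 2 * (h j : Γ → C.I → Cm n → ℝ) γ b z ^ 2 * vol (K.w b) z ≤
        (∫ z in C.V b, gr (K.w b) ζ ζ z * (h j : Γ → C.I → Cm n → ℝ) γ b z ^ 2 *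
          vol (K.w b) z) + ε) :
    ∀ ε : ℝ, 0 < ε → ∀ᶠ j in atTop, ∀ b : C.I,
      l * Int P K (fun γ a z => cut P b (phi P F) γ a z ^ 2 *
        (h j : Γ → C.I → Cm n → ℝ) γ a z ^ 2) ≤
      Int P K (fun γ a z => Gr K (cut P b (phi P F)) (cut P b (phi P F)) γ a z *
        (h j : Γ → C.I → Cm n → ℝ) γ a z ^ 2) + ε := by
  intro ε hε
  have hφ := isTst_phi P hF
  set S : Finset Γ := hφ.fin.toFinset with hS
  have hSn : ∀ γ, γ ∉ S → ∀ a, ∀ z ∈ C.V a, phi P F γ a z = 0 := by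
    intro γ hγ a z hz
    by_contra h0
    exact hγ (hφ.fin.mem_toFinset.2 ⟨a, z, hz, h0⟩)
  have hev : ∀ᶠ j in atTop, ∀ b : C.I, ∀ γ ∈ S,
      l * ∫ z in C.V b, cut P b (phi P F) γ b z ^ 2 *
          (h j : Γ → C.I → Cm n → ℝ) γ b z ^ 2 * vol (K.w b) z ≤
        (∫ z in C.V b, gr (K.w b) (cut P b (phi P F) γ b) (cut P b (phi P F) γ b) z *
          (h j : Γ → C.I → Cm n → ℝ) γ b z ^ 2 * vol (K.w b) z) + ε / (S.card + 1) := by
    rw [eventually_all]
    intro b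
    rw [Finset.eventually_all]
    intro γ _
    exact hloc γ b _ (TU_cut P b hφ γ) _ (by positivity)
  filter_upwards [hev] with j hj b
  have hc := isTst_cut P b hφ
  have hsq : Fam C (fun γ a z => (h j : Γ → C.I → Cm n → ℝ) γ a z ^ 2) := Fam_sq (isTst_fam (h j).2)
  have F1 : Fam C (fun γ a z => cut P b (phi P F) γ a z ^ 2 *
      (h j : Γ → C.I → Cm n → ℝ) γ a z ^ 2) := Fam_mul (Fam_sq (isTst_fam hc)) hsq
  have F2 : Fam C (fun γ a z => Gr K (cut P b (phi P F)) (cut P b (phi P F)) γ a z *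
      (h j : Γ → C.I → Cm n → ℝ) γ a z ^ 2) := Fam_mul (h5.fam C K _ _ hc hc).2.1 hsq
  have hev0 : ∀ γ a, ∀ z ∈ C.Ω a, ¬ (z ∈ C.O a b ∧ C.T a b z ∈ P.K b) →
      cut P b (phi P F) γ a =ᶠ[𝓝 z] fun _ => 0 := fun γ a z hz hn => cut_ev P b _ γ hz hn
  rw [h3.piece C P K _ b (P.K b) F1 (P.compactK b) (P.K_sub b) ?_,
    h3.piece C P K _ b (P.K b) F2 (P.compactK b) (P.K_sub b) ?_]
  · -- finite sums
    have hz1 : ∀ γ, γ ∉ S → ∀ z ∈ C.V b, cut P b (phi P F) γ b =ᶠ[𝓝 z] fun _ => 0 := by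
      intro γ hγ z hz
      filter_upwards [isOpen_ball.mem_nhds hz] with y hy
      simp only [cut]
      rw [hSn γ hγ b y hy, mul_zero]
    rw [tsum_eq_sum (s := S) fun γ hγ => ?_, tsum_eq_sum (s := S) fun γ hγ => ?_]
    · rw [Finset.mul_sum]
      calc _ ≤ ∑ γ ∈ S, ((∫ z in C.V b, Gr K (cut P b (phi P F)) (cut P b (phi P F)) γ b z *
            (h j : Γ → C.I → Cm n → ℝ) γ b z ^ 2 * vol (K.w b) z) + ε / (S.card + 1)) :=
            Finset.sum_le_sum fun γ hγ => hj b γ hγ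
        _ = (∑ γ ∈ S, ∫ z in C.V b, Gr K (cut P b (phi P F)) (cut P b (phi P F)) γ b z *
            (h j : Γ → C.I → Cm n → ℝ) γ b z ^ 2 * vol (K.w b) z) +
            S.card * (ε / (S.card + 1)) := by
            rw [Finset.sum_add_distrib, Finset.sum_const, nsmul_eq_mul]
        _ ≤ _ := by
            have h1 : (S.card : ℝ) * (ε / (S.card + 1)) ≤ ε := by
              rw [mul_div_assoc', div_le_iff₀ (by positivity)]
              nlinarith [Nat.cast_nonneg (α := ℝ) S.card]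
            linarith
    · refine setIntegral_eq_zero_of_forall_eq_zero fun z hz => ?_
      simp only [Gr]
      rw [gr_eq_zero (hz1 γ hγ z hz)]
      ring
    · refine setIntegral_eq_zero_of_forall_eq_zero fun z hz => ?_
      rw [(hz1 γ hγ z hz).self_of_nhds]
      ring
  · intro γ a z hz hne
    by_contra hn
    apply hne
    simp only [Gr]
    rw [gr_eq_zero (hev0 γ a z hz hn), zero_mul]
  · intro γ a z hz hne
    by_contra hn
    apply hne
    rw [(hev0 γ a z hz hn).self_of_nhds]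
    ring

/-- comparison of `φ` with the partition of unity -/
theorem phi_le_cut (h3 : V3Stmt) (P : PU C) (K : KM C) (φ : Γ → C.I → Cm n → ℝ) (hφ : IsTst C φ)
    {H : Γ → C.I → Cm n → ℝ} (hH : Fam C H) (hH0 : ∀ γ a z, 0 ≤ H γ a z) :
    Int P K (fun γ a z => φ γ a z ^ 2 * H γ a z) ≤
      Fintype.card C.I * ∑ b, Int P K (fun γ a z => cut P b φ γ a z ^ 2 * H γ a z) := by
  have F1 : ∀ b ∈ (Finset.univ : Finset C.I), Fam C (fun γ a z => cut P b φ γ a z ^ 2 * H γ a z) :=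
    fun b _ => Fam_mul (Fam_sq (isTst_fam (isTst_cut P b hφ))) hH
  rw [← Int_sum h3 Finset.univ F1, ← Int_const_mul h3 P K (Fam_sum Finset.univ F1)]
  refine h3.mono C P K _ _ (Fam_mul (Fam_sq (isTst_fam hφ)) hH)
    (Fam_const_mul (Fam_sum Finset.univ F1) _) fun γ a z hz => ?_
  have hz' := V_sub_Ω C a hz
  have h1 : (1 : ℝ) ≤ Fintype.card C.I * ∑ b, P.χ b a z ^ 2 := by
    have h2 := sq_sum_le_card_mul_sum_sq (s := (Finset.univ : Finset C.I)) (f := fun b => P.χ b a z)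
    rw [P.sum_one a z hz', one_pow, Finset.card_univ] at h2
    exact h2
  have h3' : ∑ b, cut P b φ γ a z ^ 2 * H γ a z = (∑ b, P.χ b a z ^ 2) * (φ γ a z ^ 2 * H γ a z) := by
    rw [Finset.sum_mul]
    refine Finset.sum_congr rfl fun b _ => ?_
    simp only [cut]
    ring
  rw [h3', ← mul_assoc]
  exact le_mul_of_one_le_left (mul_nonneg (sq_nonneg _) (hH0 _ _ _)) h1

/-- **V7**, with the local part -/
theorem v7_of (hL : V7LStmt) : V7Stmt := by
  intro hp h3 h4 h5 h6 n Γ _ C P K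
  obtain ⟨B, hB0, hBχ, hBφ⟩ := exists_gr_phi hp P K
  set I : ℝ := ((Fintype.card C.I : ℕ) : ℝ) with hI
  have hI1 : (1 : ℝ) ≤ I := by
    rw [hI]
    exact Nat.one_le_cast.2 Fintype.card_pos
  refine ⟨2 * B * I ^ 2 + 1, by positivity, fun l hl f hf δ hδ => ?_⟩
  have hl0 : 0 < l := lt_of_lt_of_le (by positivity) hl
  have hip : ∀ f h : Asm.tst C, Asm.ipF h3 h5 P K f h = Int P K fun γ a z =>
      (f : Γ → C.I → Cm n → ℝ) γ a z * (h : Γ → C.I → Cm n → ℝ) γ a z := fun _ _ => rfl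
  obtain ⟨v, hcau, hort⟩ := min_seq (Asm.ipF h3 h5 P K)
    (fun f h => by
      rw [hip, hip]
      exact Int_congr P K fun γ a z _ => mul_comm _ _)
    (fun f => by
      rw [hip]
      exact Asm.Int_nonneg h3 P K (h5.fam C K f f f.2 f.2).1 fun γ a z _ => mul_self_nonneg _)
    (TT h5 K l) (⟨f, hf⟩ : Asm.tst C)
  set h : ℕ → Asm.tst C := fun j => (⟨f, hf⟩ : Asm.tst C) - TT h5 K l (v j) with hh
  -- Cauchy
  have hY : ∀ j k : ℕ, Int P K (fun γ a z => ((h j : Γ → C.I → Cm n → ℝ) γ a z -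
      (h k : Γ → C.I → Cm n → ℝ) γ a z) ^ 2) ≤ 2 / ((j : ℝ) + 1) + 2 / ((k : ℝ) + 1) := by
    intro j k
    refine le_trans (le_of_eq ?_) (hcau j k)
    rw [hip]
    refine Int_congr P K fun γ a z _ => ?_
    rw [sq]
    rfl
  have hFsub : ∀ j k : ℕ, Fam C (fun γ a z => ((h j : Γ → C.I → Cm n → ℝ) γ a z -
      (h k : Γ → C.I → Cm n → ℝ) γ a z) ^ 2) := fun j k =>
    Fam_sq (isTst_fam (h j - h k).2)
  have hFsq : ∀ j : ℕ, Fam C (fun γ a z => (h j : Γ → C.I → Cm n → ℝ) γ a z ^ 2) := fun j =>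
    Fam_sq (isTst_fam (h j).2)
  -- the local inequality
  have hloc : ∀ (γ : Γ) (b : C.I) (ζ : Cm n → ℝ), TU (C.V b) ζ → ∀ ε : ℝ, 0 < ε → ∀ᶠ j in atTop,
      l * ∫ z in C.V b, ζ z ^ 2 * (h j : Γ → C.I → Cm n → ℝ) γ b z ^ 2 * vol (K.w b) z ≤
        (∫ z in C.V b, gr (K.w b) ζ ζ z * (h j : Γ → C.I → Cm n → ℝ) γ b z ^ 2 *
          vol (K.w b) z) + ε := by
    intro γ b ζ hζ ε hε
    have hr := C.r_pos b
    refine hL h6 n (C.c b) (3 * C.r b) (4 * C.r b) (by linarith) (by linarith) (K.w b) (K.ku b)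
      (fun j => (h j : Γ → C.I → Cm n → ℝ) γ b) l hl0 (fun j z hz => (h j).2.smooth γ b z hz)
      (fun ε hε => ?_) (fun F hF => weak_lim h3 h4 h5 P K l hort γ b hF) ζ hζ ε hε
    obtain ⟨J, hJ⟩ := exists_nat_gt (4 / ε)
    refine ⟨J, fun j hj k hk => ?_⟩
    have h1 := (piece_le h3 P K (hFsub j k) (fun _ _ _ _ => sq_nonneg _) γ b).trans (hY j k)
    refine h1.trans_lt ?_
    have hJ0 : (0 : ℝ) < (J : ℝ) + 1 := by positivity
    have h2 : ∀ i ≥ J, (2 : ℝ) / ((i : ℝ) + 1) ≤ 2 / ((J : ℝ) + 1) := fun i hi => by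
      have : (J : ℝ) ≤ i := by exact_mod_cast hi
      gcongr
    have h3 : (2 : ℝ) / ((J : ℝ) + 1) + 2 / ((J : ℝ) + 1) < ε := by
      rw [← add_div, div_lt_iff₀ hJ0]
      rw [div_lt_iff₀ hε] at hJ
      nlinarith
    linarith [h2 j hj, h2 k hk]
  -- choice of `j₀`
  set A : ℝ := 2 * B * I ^ 2 + 1 with hA
  have hA0 : 0 < A := by positivity
  obtain ⟨j₀, hj₀⟩ := exists_nat_gt (6 * A / δ)
  have hj₀' : ∀ i ≥ j₀, A * (2 / ((i : ℝ) + 1)) < δ / 3 := by
    intro i hi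
    have h1 : (j₀ : ℝ) ≤ i := by exact_mod_cast hi
    rw [div_lt_iff₀ hδ] at hj₀
    have h2 : (0 : ℝ) < (i : ℝ) + 1 := by positivity
    rw [mul_div_assoc', div_lt_iff₀ h2]
    nlinarith
  have hS₀ := (h j₀).2.fin
  set S₀ : Set Γ := {γ : Γ | ∃ a, ∃ z ∈ C.V a, (h j₀ : Γ → C.I → Cm n → ℝ) γ a z ≠ 0} with hS₀'
  set F : Set Γ := image2 (fun x y : Γ => x * y) S₀ (C.N : Set Γ) with hF
  have hFf : F.Finite := hS₀.image2 _ C.N.finite_toSet
  have hin : ∀ γ ∈ S₀, ∀ g ∈ C.N, γ * g ∈ F := fun γ hγ g hg => ⟨γ, hγ, g, hg, rfl⟩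
  have hout : ∀ γ, γ ∉ S₀ → ∀ a, ∀ z ∈ C.V a, (h j₀ : Γ → C.I → Cm n → ℝ) γ a z = 0 := by
    intro γ hγ a z hz
    by_contra h0
    exact hγ ⟨a, z, hz, h0⟩
  have hφ := isTst_phi P hFf
  -- `ε`
  set ε : ℝ := δ / (6 * I ^ 2) with hε
  have hε0 : 0 < ε := by positivity
  have hev := step_cut h3 h5 P K (l := l) (h := h) F hFf hloc ε hε0
  obtain ⟨J, hJ⟩ := eventually_atTop.1 hev
  set j := max J j₀ with hj
  have hstep := hJ j (le_max_left _ _)
  set X : ℝ := Int P K (fun γ a z => phi P F γ a z ^ 2 *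
    (h j : Γ → C.I → Cm n → ℝ) γ a z ^ 2) with hX
  set Y : ℝ := Int P K (fun γ a z => ((h j : Γ → C.I → Cm n → ℝ) γ a z -
      (h j₀ : Γ → C.I → Cm n → ℝ) γ a z) ^ 2) with hYdef
  have FX : Fam C (fun γ a z => phi P F γ a z ^ 2 * (h j : Γ → C.I → Cm n → ℝ) γ a z ^ 2) :=
    Fam_mul (Fam_sq (isTst_fam hφ)) (hFsq j)
  have hYb : A * Y < 2 * (δ / 3) := by
    have h1 := hY j j₀
    have h2 := hj₀' j (le_max_right _ _)
    have h3 := hj₀' j₀ le_rfl
    have h4 : A * Y ≤ A * (2 / ((j : ℝ) + 1) + 2 / ((j₀ : ℝ) + 1)) :=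
      mul_le_mul_of_nonneg_left h1 hA0.le
    rw [mul_add] at h4
    linarith
  -- (1): the right-hand side
  have hR : ∀ b : C.I, Int P K (fun γ a z => Gr K (cut P b (phi P F)) (cut P b (phi P F)) γ a z *
      (h j : Γ → C.I → Cm n → ℝ) γ a z ^ 2) ≤ 2 * B * X + 2 * B * Y := by
    intro b
    have hc := isTst_cut P b hφ
    rw [hX, hYdef, ← Int_const_mul h3 P K FX, ← Int_const_mul h3 P K (hFsub j j₀),
      ← Int_add h3 P K (Fam_const_mul FX _) (Fam_const_mul (hFsub j j₀) _)]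
    refine h3.mono C P K _ _ (Fam_mul (h5.fam C K _ _ hc hc).2.1 (hFsq j))
      (Fam_add (Fam_const_mul FX _) (Fam_const_mul (hFsub j j₀) _)) fun γ a z hz => ?_
    have hz' := V_sub_Ω C a hz
    have hpos := (K.ku a).pos z hz'
    have h1 : gr (K.w a) (cut P b (phi P F) γ a) (cut P b (phi P F) γ a) z ≤
        2 * P.χ b a z ^ 2 * gr (K.w a) (phi P F γ a) (phi P F γ a) z +
          2 * phi P F γ a z ^ 2 * gr (K.w a) (P.χ b a) (P.χ b a) z :=
      hp.prod (K.w a) (P.χ b a) (phi P F γ a) z hpos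
        ((P.smooth b a z hz').differentiableAt (by simp))
        ((hφ.smooth γ a z hz').differentiableAt (by simp))
    have hχ0 := P.nonneg b a z
    have hχ1 : P.χ b a z ≤ 1 := by
      rw [← P.sum_one a z hz']
      exact Finset.single_le_sum (fun b _ => P.nonneg b a z) (Finset.mem_univ b)
    have hχ2 : P.χ b a z ^ 2 ≤ 1 := pow_le_one₀ hχ0 hχ1
    have h2 := hBχ a b z hz
    have h3' := hBφ F γ a z hz
    have h30 := (hp.nonneg (K.w a) (phi P F γ a) z hpos).1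
    have hsq := sq_nonneg ((h j : Γ → C.I → Cm n → ℝ) γ a z)
    have hsφ := sq_nonneg (phi P F γ a z)
    show gr (K.w a) (cut P b (phi P F) γ a) (cut P b (phi P F) γ a) z *
      (h j : Γ → C.I → Cm n → ℝ) γ a z ^ 2 ≤ _
    refine (mul_le_mul_of_nonneg_right h1 hsq).trans ?_
    have h4 : 2 * phi P F γ a z ^ 2 * gr (K.w a) (P.χ b a) (P.χ b a) z *
        (h j : Γ → C.I → Cm n → ℝ) γ a z ^ 2 ≤
        2 * B * (phi P F γ a z ^ 2 * (h j : Γ → C.I → Cm n → ℝ) γ a z ^ 2) := by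
      have := mul_le_mul_of_nonneg_left h2
        (mul_nonneg (mul_nonneg (by norm_num : (0 : ℝ) ≤ 2) hsφ) hsq)
      nlinarith
    have h5' : 2 * P.χ b a z ^ 2 * gr (K.w a) (phi P F γ a) (phi P F γ a) z *
        (h j : Γ → C.I → Cm n → ℝ) γ a z ^ 2 ≤
        2 * B * ((h j : Γ → C.I → Cm n → ℝ) γ a z - (h j₀ : Γ → C.I → Cm n → ℝ) γ a z) ^ 2 := by
      by_cases hγ : γ ∈ S₀
      · rw [gr_phi_eq_zero P K (hin γ hγ) hz]
        have := sq_nonneg ((h j : Γ → C.I → Cm n → ℝ) γ a z - (h j₀ : Γ → C.I → Cm n → ℝ) γ a z)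
        nlinarith
      · rw [hout γ hγ a z hz, sub_zero]
        refine mul_le_mul_of_nonneg_right ?_ hsq
        have h6 : P.χ b a z ^ 2 * gr (K.w a) (phi P F γ a) (phi P F γ a) z ≤ 1 * B :=
          mul_le_mul hχ2 h3' h30 zero_le_one
        linarith
    linarith
  -- (2)
  have hX0 : 0 ≤ X := Asm.Int_nonneg h3 P K FX fun γ a z _ =>
    mul_nonneg (sq_nonneg _) (sq_nonneg _)
  have hXle : l * X ≤ I * (I * (2 * B * X + 2 * B * Y + ε)) := by
    have h1 := phi_le_cut h3 P K (phi P F) hφ (hFsq j) (fun _ _ _ => sq_nonneg _)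
    have h2 : l * ∑ b, Int P K (fun γ a z => cut P b (phi P F) γ a z ^ 2 *
        (h j : Γ → C.I → Cm n → ℝ) γ a z ^ 2) ≤ I * (2 * B * X + 2 * B * Y + ε) := by
      rw [Finset.mul_sum]
      calc _ ≤ ∑ _b : C.I, (2 * B * X + 2 * B * Y + ε) := by
            refine Finset.sum_le_sum fun b _ => ?_
            exact (hstep b).trans (by linarith [hR b])
        _ = _ := by rw [Finset.sum_const, Finset.card_univ, nsmul_eq_mul]
    calc l * X ≤ l * (I * ∑ b, Int P K (fun γ a z => cut P b (phi P F) γ a z ^ 2 *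
        (h j : Γ → C.I → Cm n → ℝ) γ a z ^ 2)) := mul_le_mul_of_nonneg_left h1 hl0.le
      _ = I * (l * ∑ b, Int P K (fun γ a z => cut P b (phi P F) γ a z ^ 2 *
        (h j : Γ → C.I → Cm n → ℝ) γ a z ^ 2)) := by ring
      _ ≤ _ := mul_le_mul_of_nonneg_left h2 (by linarith)
  have hXle' : X ≤ 2 * B * I ^ 2 * Y + I ^ 2 * ε := by
    have h1 : A * X ≤ l * X := mul_le_mul_of_nonneg_right hl hX0
    have h2 : I * (I * (2 * B * X + 2 * B * Y + ε)) =
        2 * B * I ^ 2 * X + 2 * B * I ^ 2 * Y + I ^ 2 * ε := by ring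
    rw [h2] at hXle
    rw [hA] at h1
    linarith
  -- (3)
  have hfin : Int P K (fun γ a z => (h j : Γ → C.I → Cm n → ℝ) γ a z ^ 2) ≤ X + Y := by
    rw [hX, hYdef, ← Int_add h3 P K FX (hFsub j j₀)]
    refine h3.mono C P K _ _ (hFsq j) (Fam_add FX (hFsub j j₀)) fun γ a z hz => ?_
    by_cases hγ : γ ∈ S₀
    · rw [phi_eq_one P (hin γ hγ) hz]
      have := sq_nonneg ((h j : Γ → C.I → Cm n → ℝ) γ a z - (h j₀ : Γ → C.I → Cm n → ℝ) γ a z)
      linarith
    · rw [hout γ hγ a z hz, sub_zero]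
      have := mul_nonneg (sq_nonneg (phi P F γ a z))
        (sq_nonneg ((h j : Γ → C.I → Cm n → ℝ) γ a z))
      linarith
  refine ⟨v j, (v j).2, ?_⟩
  have heq : Int P K (fun γ a z => (l * (v j : Γ → C.I → Cm n → ℝ) γ a z -
      Lap K (v j : Γ → C.I → Cm n → ℝ) γ a z - f γ a z) ^ 2) =
      Int P K (fun γ a z => (h j : Γ → C.I → Cm n → ℝ) γ a z ^ 2) := by
    refine Int_congr P K fun γ a z _ => ?_
    show _ = (f γ a z - (l * (v j : Γ → C.I → Cm n → ℝ) γ a z -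
      Lap K (v j : Γ → C.I → Cm n → ℝ) γ a z)) ^ 2
    ring
  rw [heq]
  have hεb : I ^ 2 * ε = δ / 6 := by
    rw [hε]
    field_simp
  have : 2 * B * I ^ 2 * Y + Y = A * Y := by rw [hA]; ring
  linarith

end

end Vale.Agent.P284.H446.V
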