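import Vale.Agent.P284.H446.V7
import Mathlib.MeasureTheory.Function.L2Space

/-!
# P284, theorem V, block V7 (helper446): local `L²` limit
-/

open scoped Manifold ContDiff Topology Pointwise ComplexConjugate ComplexOrder
open Filter Set Metric MeasureTheory

noncomputable section

namespace Vale.Agent.P284.H446.V

open Vale.Agent.P272.K Vale.Agent.P272.K.C2 Vale.Agent.P284.H248 Vale.Agent.P284.H894
  Vale.Agent.P284.H894.V Vale.Agent.P284.H639.V

section abs
variable {α : Type*} [MeasurableSpace α] {μ : Measure α}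

theorem inner_eq (x y : Lp ℝ 2 μ) : inner ℝ x y = ∫ a, x a * y a ∂μ := by
  rw [L2.inner_def]
  refine integral_congr_ae (Eventually.of_forall fun a => ?_)
  simp [mul_comm]

theorem norm_sq_toLp {f : α → ℝ} (hf : MemLp f 2 μ) : ‖hf.toLp f‖ ^ 2 = ∫ a, f a ^ 2 ∂μ := by
  rw [← real_inner_self_eq_norm_sq, inner_eq]
  refine integral_congr_ae ?_
  filter_upwards [hf.coeFn_toLp] with a ha
  rw [ha, sq]

theorem tendsto_lin {x : ℕ → Lp ℝ 2 μ} {y : Lp ℝ 2 μ} (hx : Tendsto x atTop (𝓝 y)) {F : α → ℝ}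
    (hF : MemLp F 2 μ) :
    Tendsto (fun j => ∫ a, x j a * F a ∂μ) atTop (𝓝 (∫ a, y a * F a ∂μ)) := by
  have h1 : ∀ z : Lp ℝ 2 μ, inner ℝ z (hF.toLp F) = ∫ a, z a * F a ∂μ := by
    intro z
    rw [inner_eq]
    refine integral_congr_ae ?_
    filter_upwards [hF.coeFn_toLp] with a ha
    rw [ha]
  have h2 : Tendsto (fun j => inner ℝ (x j) (hF.toLp F)) atTop (𝓝 (inner ℝ y (hF.toLp F))) :=
    hx.inner tendsto_const_nhds
  simpa only [h1] using h2

theorem tendsto_quad {x : ℕ → Lp ℝ 2 μ} {y : Lp ℝ 2 μ} (hx : Tendsto x atTop (𝓝 y)) {ρ : α → ℝ}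
    (hρ : AEStronglyMeasurable ρ μ) {B : ℝ} (hB : ∀ᵐ a ∂μ, ‖ρ a‖ ≤ B) :
    Tendsto (fun j => ∫ a, ρ a * x j a ^ 2 ∂μ) atTop (𝓝 (∫ a, ρ a * y a ^ 2 ∂μ)) := by
  have mem : ∀ z : Lp ℝ 2 μ, MemLp (fun a => ρ a * z a) 2 μ := fun z =>
    (Lp.memLp z).of_le_mul (c := B) (hρ.mul (Lp.aestronglyMeasurable z)) (by
      filter_upwards [hB] with a ha
      rw [norm_mul]
      exact mul_le_mul_of_nonneg_right ha (norm_nonneg _))
  have hdist : ∀ z z' : Lp ℝ 2 μ, ‖(mem z).toLp _ - (mem z').toLp _‖ ≤ B * ‖z - z'‖ := by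
    intro z z'
    refine Lp.norm_le_mul_norm_of_ae_le_mul ?_
    filter_upwards [hB, (mem z).coeFn_toLp, (mem z').coeFn_toLp,
      Lp.coeFn_sub ((mem z).toLp _) ((mem z').toLp _), Lp.coeFn_sub z z'] with a h0 h1 h2 h3 h4
    rw [h3, h4, Pi.sub_apply, Pi.sub_apply, h1, h2, ← mul_sub, norm_mul]
    exact mul_le_mul_of_nonneg_right h0 (norm_nonneg _)
  have hM : Tendsto (fun j => (mem (x j)).toLp _) atTop (𝓝 ((mem y).toLp _)) := by
    rw [tendsto_iff_norm_sub_tendsto_zero]
    have h1 : Tendsto (fun j => B * ‖x j - y‖) atTop (𝓝 (B * 0)) :=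
      (tendsto_iff_norm_sub_tendsto_zero.1 hx).const_mul B
    rw [mul_zero] at h1
    exact squeeze_zero (fun j => norm_nonneg _) (fun j => hdist (x j) y) h1
  have h1 : ∀ z : Lp ℝ 2 μ, inner ℝ z ((mem z).toLp _) = ∫ a, ρ a * z a ^ 2 ∂μ := by
    intro z
    rw [inner_eq]
    refine integral_congr_ae ?_
    filter_upwards [(mem z).coeFn_toLp] with a ha
    rw [ha]
    ring
  have h2 := hx.inner (𝕜 := ℝ) hM
  simpa only [h1] using h2

end abs

theorem memLp_of_cont {n : ℕ} {c : Cm n} {R R' : ℝ} (hRR : R < R') {f : Cm n → ℝ}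
    (hf : ContinuousOn f (ball c R')) :
    (∃ B : ℝ, ∀ z ∈ ball c R, ‖f z‖ ≤ B) ∧
      AEStronglyMeasurable f (volume.restrict (ball c R)) ∧
      MemLp f 2 (volume.restrict (ball c R)) := by
  obtain ⟨B, hB⟩ := (isCompact_closedBall c R).exists_bound_of_continuousOn
    (hf.mono (closedBall_subset_ball hRR))
  have hB' : ∀ z ∈ ball c R, ‖f z‖ ≤ B := fun z hz => hB z (ball_subset_closedBall hz)
  have hm : AEStronglyMeasurable f (volume.restrict (ball c R)) :=
    (hf.mono (ball_subset_ball hRR.le)).aestronglyMeasurable measurableSet_ball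
  have : IsFiniteMeasure (volume.restrict (ball c R)) :=
    ⟨by rw [Measure.restrict_apply_univ]; exact measure_ball_lt_top⟩
  exact ⟨⟨B, hB'⟩, hm, MemLp.of_bound hm B (by
    rw [ae_restrict_iff' measurableSet_ball]
    exact Eventually.of_forall hB')⟩

theorem v7LStmt : V7LStmt := by
  intro h6 n c R R' hR hRR w hw h l hl hsm hcau hweak ζ hζ ε hε
  set μ : Measure (Cm n) := volume.restrict (ball c R) with hμ
  have hfm : IsFiniteMeasure μ :=
    ⟨by rw [hμ, Measure.restrict_apply_univ]; exact measure_ball_lt_top⟩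
  have hball : ∀ {p : Cm n → Prop}, (∀ z ∈ ball c R, p z) → ∀ᵐ z ∂μ, p z := by
    intro p hp
    rw [hμ, ae_restrict_iff' measurableSet_ball]
    exact Eventually.of_forall hp
  have hvol : ContinuousOn (vol w) (ball c R') := fun z hz =>
    (smooth_vol hw hz).continuousAt.continuousWithinAt
  have hcont : ∀ j, ContinuousOn (h j) (ball c R') := fun j z hz =>
    (hsm j z hz).continuousAt.continuousWithinAt
  -- lower bound of the volume
  obtain ⟨m, hm0, hm⟩ : ∃ m : ℝ, 0 < m ∧ ∀ z ∈ ball c R, m ≤ vol w z := by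
    obtain ⟨z₀, hz₀, hmin⟩ := (isCompact_closedBall c R).exists_isMinOn
      (nonempty_closedBall.2 hR.le) (hvol.mono (closedBall_subset_ball hRR))
    refine ⟨vol w z₀, ?_, fun z hz => hmin (ball_subset_closedBall hz)⟩
    have := (hw.pos z₀ (closedBall_subset_ball hRR hz₀)).det_pos
    exact (Complex.pos_iff.1 this).1
  have hmem : ∀ j, MemLp (h j) 2 μ := fun j => (memLp_of_cont hRR (hcont j)).2.2
  set x : ℕ → Lp ℝ 2 μ := fun j => (hmem j).toLp (h j) with hx
  have hxae : ∀ j, (x j : Cm n → ℝ) =ᵐ[μ] h j := fun j => (hmem j).coeFn_toLp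
  have hcs : CauchySeq x := by
    rw [Metric.cauchySeq_iff]
    intro η hη
    obtain ⟨J, hJ⟩ := hcau (m * η ^ 2) (by positivity)
    refine ⟨J, fun j hj k hk => ?_⟩
    have h1 := hJ j hj k hk
    have hd : ContinuousOn (fun z => (h j z - h k z) ^ 2) (ball c R') :=
      ((hcont j).sub (hcont k)).pow 2
    have hi1 : Integrable (fun z => m * (h j z - h k z) ^ 2) μ :=
      ((memLp_of_cont hRR hd).2.2.integrable (by norm_num)).const_mul m
    have hi2 : Integrable (fun z => (h j z - h k z) ^ 2 * vol w z) μ :=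
      (memLp_of_cont hRR (hd.mul hvol)).2.2.integrable (by norm_num)
    have h2 : ∫ z, m * (h j z - h k z) ^ 2 ∂μ ≤ ∫ z, (h j z - h k z) ^ 2 * vol w z ∂μ := by
      refine integral_mono_ae hi1 hi2 (hball fun z hz => ?_)
      show m * (h j z - h k z) ^ 2 ≤ (h j z - h k z) ^ 2 * vol w z
      rw [mul_comm]
      exact mul_le_mul_of_nonneg_left (hm z hz) (sq_nonneg _)
    rw [integral_const_mul] at h2
    have h3 : ‖x j - x k‖ ^ 2 = ∫ z, (h j z - h k z) ^ 2 ∂μ := by
      rw [hx]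
      simp only
      rw [← MemLp.toLp_sub, norm_sq_toLp]
      rfl
    have h4 : ‖x j - x k‖ ^ 2 < η ^ 2 := by
      rw [h3]
      have : m * ∫ z, (h j z - h k z) ^ 2 ∂μ < m * η ^ 2 := h2.trans_lt h1
      exact lt_of_mul_lt_mul_left this hm0.le
    rw [dist_eq_norm]
    exact lt_of_pow_lt_pow_left₀ 2 hη.le h4
  obtain ⟨g, hg⟩ := cauchySeq_tendsto_of_complete hcs
  have hlin : ∀ F : Cm n → ℝ, ContinuousOn F (ball c R') →
      Tendsto (fun j => ∫ z, h j z * F z ∂μ) atTop (𝓝 (∫ z, g z * F z ∂μ)) := by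
    intro F hF
    refine (tendsto_lin hg (memLp_of_cont hRR hF).2.2).congr fun j => ?_
    refine integral_congr_ae ?_
    filter_upwards [hxae j] with z hz
    rw [hz]
  have hquad : ∀ F : Cm n → ℝ, ContinuousOn F (ball c R') →
      Tendsto (fun j => ∫ z, F z * h j z ^ 2 ∂μ) atTop (𝓝 (∫ z, F z * g z ^ 2 ∂μ)) := by
    intro F hF
    obtain ⟨⟨B, hB⟩, h2, -⟩ := memLp_of_cont hRR hF
    refine (tendsto_quad hg h2 (hball hB)).congr fun j => ?_
    refine integral_congr_ae ?_
    filter_upwards [hxae j] with z hz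
    rw [hz]
  have key := h6 n c R R' hR hRR w hw g l hl (Lp.memLp g) (fun F hF => ?_) ζ hζ
  · have c1 : ContinuousOn (fun z => ζ z ^ 2 * vol w z) (ball c R') :=
      (hζ.smooth.continuous.continuousOn.pow 2).mul hvol
    have c2 : ContinuousOn (fun z => gr w ζ ζ z * vol w z) (ball c R') :=
      ContinuousOn.mul (fun z hz => (smooth_gr hw hz hζ.smooth.contDiffAt
        hζ.smooth.contDiffAt).continuousAt.continuousWithinAt) hvol
    have e1 : ∀ k : Cm n → ℝ, ∫ z in ball c R, ζ z ^ 2 * k z ^ 2 * vol w z =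
        ∫ z, (ζ z ^ 2 * vol w z) * k z ^ 2 ∂μ := fun k => by
      refine integral_congr_ae (Eventually.of_forall fun z => ?_)
      simp only
      ring
    have e2 : ∀ k : Cm n → ℝ, ∫ z in ball c R, gr w ζ ζ z * k z ^ 2 * vol w z =
        ∫ z, (gr w ζ ζ z * vol w z) * k z ^ 2 ∂μ := fun k => by
      refine integral_congr_ae (Eventually.of_forall fun z => ?_)
      simp only
      ring
    rw [e1, e2] at key
    have t1 := (hquad _ c1).const_mul l
    have t2 := (hquad _ c2).add_const ε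
    have hlt : l * ∫ z, (ζ z ^ 2 * vol w z) * g z ^ 2 ∂μ <
        (∫ z, (gr w ζ ζ z * vol w z) * g z ^ 2 ∂μ) + ε := by linarith
    filter_upwards [t1.eventually_lt t2 hlt] with j hj
    rw [e1, e2]
    exact hj.le
  · have cF : ContinuousOn (fun z => (l * F z - lap w F z) * vol w z) (ball c R') := by
      refine ContinuousOn.mul ?_ hvol
      refine (continuousOn_const.mul hF.smooth.continuous.continuousOn).sub fun z hz => ?_
      exact (smooth_lap hw hz hF.smooth.contDiffAt).continuousAt.continuousWithinAt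
    have t1 := hlin _ cF
    have e : ∀ k : Cm n → ℝ, ∫ z in ball c R, k z * (l * F z - lap w F z) * vol w z =
        ∫ z, k z * ((l * F z - lap w F z) * vol w z) ∂μ := fun k => by
      refine integral_congr_ae (Eventually.of_forall fun z => ?_)
      simp only
      ring
    have t2 : Tendsto (fun j => ∫ z, h j z * ((l * F z - lap w F z) * vol w z) ∂μ) atTop (𝓝 0) :=
      (hweak F hF).congr fun j => e (h j)
    rw [e]
    exact tendsto_nhds_unique t1 t2

/-- **V7** -/
theorem v7Stmt : V7Stmt := v7_of v7LStmt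

end Vale.Agent.P284.H446.V
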