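import Vale.Agent.P284.H446.CYC
import Vale.Agent.P284.H977.T.Cl
import Vale.Agent.P284.H465.V19
import Vale.Agent.P284.H894.S.Pi
import Vale.Agent.P284.H894.V.Final

/-!
# P284 (helper446): consequences of the finite dimension of the spaces of pluriharmonic functions with
bounded gradient on the coverings
-/

open scoped Manifold ContDiff Topology Pointwise
open Filter Set Metric Function

noncomputable section

namespace Vale.Agent.P284.H446.K

open Vale.Agent.P272.K Vale.Agent.P284.H248 Vale.Agent.P284.H894 Vale.Agent.P284.H894.G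
  Vale.Agent.P284.H894.V Vale.Agent.P284.H894.W Vale.Agent.P284.H913.V Vale.Agent.P284.H409.A
  Vale.Agent.P284.H409.K Vale.Agent.P284.H622 Vale.Agent.P284.H409.T Vale.Agent.P284.H119.Kaz
  Vale.Agent.P284.H465.V19

/-- on every connected covering of `X` the pluriharmonic functions with bounded gradient form a
finite-dimensional space -/
def FDAll {n : ℕ} {X : Type} [TopologicalSpace X] [ChartedSpace (Cm n) X]
    (w : Chart n X → Cm n → Matrix (Fin n) (Fin n) ℂ) : Prop :=
  ∀ (E : Type) [TopologicalSpace E] [ConnectedSpace E] (p : E → X), IsCoveringMap p →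
    Function.Surjective p →
    ∃ V : Submodule ℝ (E → ℝ), FiniteDimensional ℝ V ∧ ∀ u, u ∈ V ↔ ∃ B, IsPHB p w u B

/-- a statement on the groups of the Galois coverings with simply connected total space gives the
statement on the fundamental group -/
theorem pi_of (n : ℕ) (X : Type) [TopologicalSpace X] [T2Space X] [CompactSpace X]
    [ConnectedSpace X] [ChartedSpace (Cm n) X] (Q : (A : Type) → [Group A] → Prop)
    (hQ : ∀ (A B : Type) [Group A] [Group B], (A ≃* B) → Q A → Q B)
    (h : ∀ (E Γ : Type) [TopologicalSpace E] [SimplyConnectedSpace E] [Group Γ]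
      [MulAction Γ E] (p : E → X), IsGalois Γ p → Q Γ) (x : X) : Q (FundamentalGroup X x) := by
  obtain ⟨N, hN⟩ := Vale.Agent.P300.H673.exists_openEmbedding (Cm n) X
  obtain ⟨Y, Γ, tY, gΓ, aΓ, π, hsc, ht2, hcont, hfree, hcov, hsurj, horb⟩ :=
    Vale.Agent.P223.X.U.main N X hN
  have hcont' : ∀ γ : Γ, Continuous fun y : Y => γ • y := hcont
  have q := Vale.Agent.P223.R2.H968.Lift.quot π hcont hfree hcov hsurj horb
  obtain ⟨y0, rfl⟩ := hsurj x
  have e : FundamentalGroup X (π y0) ≃* Γᵐᵒᵖ :=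
    q.fundamentalGroupEquiv (⟨y0, rfl⟩ : π ⁻¹' {π y0})
  have e' : FundamentalGroup X (π y0) ≃* Γ := e.trans (MulEquiv.inv' Γ).symm
  have hG : IsGalois Γ (π : Y → X) := ⟨hcov, hsurj, hcont', hfree, horb⟩
  exact hQ _ _ e'.symm (h Y Γ π hG)

section
variable {n : ℕ} {X : Type} [TopologicalSpace X] [T2Space X] [CompactSpace X] [ConnectedSpace X]
  [ChartedSpace (Cm n) X] [IsManifold 𝓘(ℂ, Cm n) ω X]

/-- **V'a** (1) -/
theorem va1 (w : Chart n X → Cm n → Matrix (Fin n) (Fin n) ℂ) (hw : IsKahler w) (hFD : FDAll w)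
    (E Γ : Type) [TopologicalSpace E] [ConnectedSpace E] [Group Γ] [MulAction Γ E] (p : E → X)
    (hp : IsGalois Γ p) : Kazhdan Γ ∨ VirtIndicable Γ ∨ NSRep Γ := by
  by_cases hK : Kazhdan Γ
  · exact Or.inl hK
  obtain ⟨V, hV, hmem⟩ := hFD E p hp.cov hp.surj
  exact Or.inr (H977.T.t10cConcl n X w hw E Γ p hp hK ⟨V, hV, fun u hu => (hmem u).2 hu⟩ Γ ⊤
    inferInstance Subgroup.topEquiv)

/-- **V'a** (2) -/
theorem va2 (w : Chart n X → Cm n → Matrix (Fin n) (Fin n) ℂ) (hw : IsKahler w) (hFD : FDAll w)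
    (E Γ : Type) [TopologicalSpace E] [ConnectedSpace E] [Group Γ] [MulAction Γ E] (p : E → X)
    (hp : IsGalois Γ p) (hi : Infinite Γ) (hf : Folner Γ) : VirtIndicable Γ := by
  obtain ⟨C, P, K, hfg, -⟩ := H639.V.v15Stmt n X w hw E Γ p hp
  obtain ⟨v, B, hv, hne⟩ := H894.V.part1 n X w hw E Γ p hp hi hf
  obtain ⟨V, hV, hmem⟩ := hFD E p hp.cov hp.surj
  obtain ⟨ρ, -, hρ⟩ := H465.V17.v17Stmt n X w hw.toIsHermitian E Γ p hp V hmem v
    ((hmem v).2 ⟨B, hv⟩) hne
  exact H731.V.v18Stmt Γ hfg hf V ρ hρ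

/-- **V'a** for the fundamental group -/
theorem va1_pi (w : Chart n X → Cm n → Matrix (Fin n) (Fin n) ℂ) (hw : IsKahler w)
    (hFD : FDAll w) (x : X) : Kazhdan (FundamentalGroup X x) ∨
      VirtIndicable (FundamentalGroup X x) ∨ NSRep (FundamentalGroup X x) := by
  refine pi_of n X (fun A _ => Kazhdan A ∨ VirtIndicable A ∨ NSRep A) ?_ ?_ x
  · intro A B _ _ e h
    rcases h with h | h | h
    · exact Or.inl (h.of_equiv e)
    · exact Or.inr (Or.inl (virtIndicable_of_equiv e h))
    · exact Or.inr (Or.inr (H894.S.nsrep_of_equiv e h))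
  · intro E Γ _ _ _ _ p hp
    have : PathConnectedSpace E := inferInstance
    exact va1 w hw hFD E Γ p hp

/-- **V'a** for the fundamental group, amenable case -/
theorem va2_pi (w : Chart n X → Cm n → Matrix (Fin n) (Fin n) ℂ) (hw : IsKahler w)
    (hFD : FDAll w) (x : X) (hi : Infinite (FundamentalGroup X x))
    (hf : Folner (FundamentalGroup X x)) : VirtIndicable (FundamentalGroup X x) := by
  refine pi_of n X (fun A _ => Infinite A → Folner A → VirtIndicable A) ?_ ?_ x hi hf
  · intro A B _ _ e h hi hf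
    have : Infinite A := e.toEquiv.infinite_iff.2 hi
    exact virtIndicable_of_equiv e (h this (folner_of_equiv e.symm hf))
  · intro E Γ _ _ _ _ p hp hi hf
    have : PathConnectedSpace E := inferInstance
    exact va2 w hw hFD E Γ p hp hi hf

/-- **V'b** -/
theorem vb (w : Chart n X → Cm n → Matrix (Fin n) (Fin n) ℂ) (hw : IsKahler w) (hFD : FDAll w)
    (U : Set X) (x : X) (hx : x ∈ U) (Q : Set X) (hUo : IsOpen U) (hQ : Q.Countable)
    (hQU : ∀ y ∈ U, ∃ q ∈ Q, Chain n X y q) (hfi : (img U x hx).FiniteIndex) :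
    Finite (FundamentalGroup X x) ∨ VirtIndicable (FundamentalGroup X x) := by
  by_cases hi : Finite (FundamentalGroup X x)
  · exact Or.inl hi
  rw [not_finite_iff_infinite] at hi
  exact Or.inr (va2_pi w hw hFD x hi
    (growth_fi kg6All0 w hw U x hx Q hUo hQ hQU hfi).folner)

end

end Vale.Agent.P284.H446.K
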